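import Crest.Agent.N49.Wf.Defs
import Crest.Agent.N49.Sd.Nrm
import Crest.Agent.N49.Tw.Ap2

/-!
# Row 49 (helper11): the norm of a morphism (leaf FNR)
-/

set_option autoImplicit false

open Matrix MvPolynomial Finset

noncomputable section

namespace Crest.Agent.N49.Wf

open Po Tw Br N49.Top Sd

theorem fnr : FNR := by
  intro τ τ' T S S' φ sc κ lam hT hs hS hS' k0 l0 hφ hl u
  have d0 : ∀ G, 0 < sc G ^ 2 := fun G => sq_pos_of_ne_zero (hs G)
  refine (congrArg (2 * ·) (Nr.qf_sh hS' hT (fun _ => l0.ne') (fun G => (d0 G).ne')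
    (T.hmM S S' (rl φ) *ᵥ u))).trans_le (le_of_le_of_eq ?_
      (Nr.qf_sh hS hT (fun _ => k0.ne') (fun G => (d0 G).ne') u).symm)
  obtain ⟨g, hg⟩ : ∃ g : T.C → ℝ, g = fun F => ∑ p : T.Cw S with p.1.1 = F,
      u p ^ 2 / (sc p.1.1 ^ 2 * κ) := ⟨_, rfl⟩
  have g0 : ∀ F, 0 ≤ g F := fun F => hg ▸ sum_nonneg fun p _ => by
    have := d0 p.1.1; positivity
  have h1 : ∀ c : T.Cw S', (T.hmM S S' (rl φ) *ᵥ u) c ^ 2 / (sc c.1.1 ^ 2 * lam) ≤
      κ * Fintype.card S.W / lam * g c.1.1 := fun c => by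
    have hc : (#{p : T.Cw S | p.1.1 = c.1.1} : ℝ) ≤ Fintype.card S.W := by
      have : #{p : T.Cw S | p.1.1 = c.1.1} ≤ #(univ : Finset S.W) := by
        refine card_le_card_of_injOn (fun p : T.Cw S => p.1.2) (fun _ _ => mem_univ _)
          fun p hp p' hp' e => Subtype.ext (Prod.ext ?_ e)
        rw [(mem_filter.1 (mem_coe.1 hp)).2, (mem_filter.1 (mem_coe.1 hp')).2]
      exact_mod_cast this
    have e : g c.1.1 = (∑ p : T.Cw S with p.1.1 = c.1.1, u p ^ 2) / (sc c.1.1 ^ 2 * κ) := by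
      rw [hg, sum_div]
      exact sum_congr rfl fun p hp => by rw [(mem_filter.1 hp).2]
    have h2 : (T.hmM S S' (rl φ) *ᵥ u) c ^ 2 ≤
        Fintype.card S.W * ∑ p : T.Cw S with p.1.1 = c.1.1, u p ^ 2 := by
      rw [TS.hmM_mulVec]
      refine sq_sum_le_card_mul_sum_sq.trans (mul_le_mul hc (sum_le_sum fun p _ => ?_)
        (sum_nonneg fun _ _ => sq_nonneg _) (Nat.cast_nonneg _))
      rw [mul_pow]
      refine mul_le_of_le_one_left (sq_nonneg _) ((sq_le_one_iff_abs_le_one _).2 ?_)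
      change |((φ _ _ : ℤ) : ℝ)| ≤ 1
      exact_mod_cast hφ _ _
    have := d0 c.1.1
    rw [e]
    refine (div_le_div_of_nonneg_right h2 (by positivity)).trans_eq ?_
    field_simp
  have h2 : ∑ c : T.Cw S', g c.1.1 ≤
      Fintype.card S'.W * ∑ p : T.Cw S, u p ^ 2 / (sc p.1.1 ^ 2 * κ) := by
    refine (Nr.sum_sub_le _ (g := fun c : T.C × S'.W => g c.1) fun c => g0 _).trans_eq ?_
    rw [Fintype.sum_prod_type]
    simp only [sum_const, card_univ, nsmul_eq_mul, ← mul_sum, hg]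
    rw [sum_fiberwise]
  have N0 : 0 ≤ ∑ p : T.Cw S, u p ^ 2 / (sc p.1.1 ^ 2 * κ) := sum_nonneg fun p _ => by
    have := d0 p.1.1; positivity
  have h3 := (sum_le_sum fun c (_ : c ∈ univ) => h1 c).trans_eq (mul_sum ..).symm
  generalize ∑ p : T.Cw S, u p ^ 2 / (sc p.1.1 ^ 2 * κ) = N at h2 N0 ⊢
  calc _ ≤ 2 * (κ * Fintype.card S.W / lam * (Fintype.card S'.W * N)) := by
        refine mul_le_mul_of_nonneg_left (h3.trans ?_) two_pos.le
        exact mul_le_mul_of_nonneg_left h2 (by positivity)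
    _ = 2 * κ * Fintype.card S.W * Fintype.card S'.W / lam * N := by ring
    _ ≤ N := mul_le_of_le_one_left N0 ((div_le_one l0).2 hl)

end Crest.Agent.N49.Wf

end
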