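import Crest.Agent.N49.Wf.Defs
import Crest.Agent.N49.Sd.Idt
import Crest.Agent.N49.Tw.Ap2
import Crest.Agent.N49.Ho.Adm

/-!
# Row 49 (helper17): exact lifting along a split morphism
-/

set_option autoImplicit false

open Matrix MvPolynomial Finset

noncomputable section

namespace Crest.Agent.N49.Wf

open Po Tw Sd

namespace Lf

variable {τ τ' : Type} {T : TS Unit} {S : Sh Unit τ} {S' : Sh Unit τ'} {φ : Matrix S'.W S.W ℤ}
  {β : S'.W → S.W}

theorem u_hmM0 {Ψ : T.Twd S} (h : S.Hm0 S' φ) (o : S.Ok) (o' : S'.Ok) (y : T.Cw S → ℝ) :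
    (T.tw S' (T.tp S S' φ Ψ)).u (T.hmM S S' (rl φ) *ᵥ y) =
      T.hmM S S' (rl φ) *ᵥ (T.tw S Ψ).u y := by
  refine funext fun p' : T.Cw S' =>
    (TS.tw_u (Ψ := T.tp S S' φ Ψ) (T.hmM S S' (rl φ) *ᵥ y) p').trans ?_
  have e : eval (T.Yw S' (T.hmM S S' (rl φ) *ᵥ y)) (T.tp S S' φ Ψ p'.1.1) =
      Sh.hA ℝ S' φ (eval (T.Yw S y) (Ψ p'.1.1)) := by
    rw [TS.tp, eval_map, ← Sh.pu_eq, eval, coe_eval₂Hom, eval₂_comp_left, RingHom.comp_id]
    congr 1
    exact funext fun F => (TS.hA_Yw h.cd y F).symm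
  rw [e, h.cf o o']
  exact (TS.sum_hmM (TS.rl_cd h.cd) p' fun F w => S.cf ℝ w (eval (T.Yw S y) (Ψ F))).symm.trans
    (sum_congr rfl fun p _ => congrArg _ (TS.tw_u y p).symm)

/-- split morphisms -/
structure Sp (S : Sh Unit τ) (S' : Sh Unit τ') (φ : Matrix S'.W S.W ℤ) (β : S'.W → S.W) :
    Prop where
  cd : ∀ w' w, φ w' w ≠ 0 → S'.cd w' = S.cd w
  one : ∀ w w', φ w (β w') = if w = w' then 1 else 0

theorem Sp.cb (h : Sp S S' φ β) (w : S'.W) : S.cd (β w) = S'.cd w :=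
  (h.cd w _ (by rw [h.one, if_pos rfl]; exact one_ne_zero)).symm

theorem Sp.inj (h : Sp S S' φ β) : Function.Injective β := fun a b e => by
  have := h.one a b
  rw [← e, h.one, if_pos rfl] at this
  by_contra n
  rw [if_neg n] at this
  exact one_ne_zero this

/-- the section on the coordinates -/
def Sp.bc (h : Sp S S' φ β) (T : TS Unit) (a : T.Cw S') : T.Cw S :=
  ⟨(a.1.1, β a.1.2), (h.cb _).trans a.2⟩

variable (T β) in
/-- the hidden coordinates -/
def jj (c : T.Cw S) : Prop := c.1.2 ∉ Set.range β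

theorem Sp.prt (h : Sp S S' φ β) : Prt (fun _ : T.Cw S => False) (jj T β) (h.bc T) where
  inj a b e := Subtype.ext (Prod.ext (congrArg (fun c : T.Cw S => c.1.1) e)
    (h.inj (congrArg (fun c : T.Cw S => c.1.2) e)))
  cov c := by
    by_cases k : jj T β c
    · exact .inr (.inl k)
    obtain ⟨w, e⟩ := not_not.1 k
    exact .inr (.inr ⟨⟨(c.1.1, w), (h.cb w).symm.trans (e ▸ c.2)⟩, Subtype.ext (Prod.ext rfl e)⟩)
  pj _ k := k.elim
  pb _ := id
  jb a k := k ⟨a.1.2, rfl⟩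

theorem Sp.L_bc (h : Sp S S' φ β) (a a' : T.Cw S') :
    T.hmM S S' φ a (h.bc T a') = if a = a' then 1 else 0 := by
  change (if a'.1.1 = a.1.1 then φ a.1.2 (β a'.1.2) else 0) = _
  rw [h.one, ← ite_and]
  exact if_congr (by rw [Subtype.ext_iff, Prod.ext_iff, eq_comm]) rfl rfl

theorem Sp.L_ext (h : Sp S S' φ β) (r : T.Cw S' → ℤ) :
    T.hm S S' φ (Function.extend (h.bc T) r 0) = r := funext fun a => by
  rw [TS.hm_eq, mulVec, dotProduct, ← Fintype.sum_of_injective _ h.prt.inj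
    (fun a' => if a = a' then r a' else 0) _
    (fun c k => by rw [Function.extend_apply' _ _ _ k, Pi.zero_apply, mul_zero]) fun a' => by
      rw [h.prt.inj.extend_apply, h.L_bc, ite_mul, one_mul, zero_mul]]
  simp

theorem Sp.rsh_eq (h : Sp S S' φ β) (r : T.Cw S' → ℤ) :
    rsh (h.bc T) (fun _ => 1) r = zc (Function.extend (h.bc T) r 0) := funext fun c => by
  by_cases k : ∃ a, h.bc T a = c
  · obtain ⟨a, rfl⟩ := k
    rw [rsh, zc, h.prt.inj.extend_apply, h.prt.inj.extend_apply, Nat.cast_one, div_one]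
  · rw [rsh, zc, Function.extend_apply' _ _ _ k, Function.extend_apply' _ _ _ k]
    simp

theorem Sp.zeta (h : Sp S S' φ β) (st : T.C → ℕ) (y y' : T.Cw S → ℤ) (a : T.Cw S')
    (e : ∀ c, False ∨ (jj T β c ∧ st c.1.1 ≤ st (h.bc T a).1.1) → y c = y' c) :
    T.hm S S' φ y a - y (h.bc T a) = T.hm S S' φ y' a - y' (h.bc T a) := by
  have k : ∀ y : T.Cw S → ℤ, T.hm S S' φ y a - y (h.bc T a) =
      ∑ c ∈ univ.erase (h.bc T a), T.hmM S S' φ a c * y c := fun y => by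
    rw [TS.hm_eq, mulVec, dotProduct, ← add_sum_erase _ _ (mem_univ (h.bc T a)), h.L_bc,
      if_pos rfl, one_mul, add_sub_cancel_left]
  rw [k, k]
  refine sum_congr rfl fun c hc => ?_
  by_cases z : T.hmM S S' φ a c = 0
  · rw [z, zero_mul, zero_mul]
  rcases h.prt.cov c with b | b | ⟨b, rfl⟩
  · exact b.elim
  · have : c.1.1 = a.1.1 := by_contra fun n => z (if_neg n)
    rw [e c (.inr ⟨b, (congrArg st this).le⟩)]
  · rw [h.L_bc] at z
    exact absurd (congrArg _ (by_contra fun n => z (if_neg n) : a = b).symm) (ne_of_mem_erase hc)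

theorem Sp.kw_j (h : Sp S S' φ β) (B : Matrix T.C T.C ℝ) (c : T.Cw S) (a : T.Cw S')
    (k : jj T β c) : T.kw S B 1 c (h.bc T a) = 0 :=
  mul_eq_zero_of_right _ (one_apply_ne fun e => k ⟨a.1.2, e.symm⟩)

theorem Sp.det_kw (h : Sp S S' φ β) (B : Matrix T.C T.C ℝ) [DecidablePred (jj T β)] :
    (T.kw S B 1).det = (T.kw S' B 1).det *
      ((T.kw S B 1).submatrix (Subtype.val : {c // jj T β c} → _) Subtype.val).det := by
  rw [Idt.det3 h.prt (T.kw S B 1) (fun _ _ _ k => k.elim) (h.kw_j B), det_isEmpty, one_mul]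
  congr 2
  ext a a'
  change B a.1.1 a'.1.1 * (1 : Matrix S.W S.W ℝ) (β a.1.2) (β a'.1.2) =
    B a.1.1 a'.1.1 * (1 : Matrix S'.W S'.W ℝ) a.1.2 a'.1.2
  rw [one_apply, one_apply, if_congr h.inj.eq_iff rfl rfl]

theorem Sp.kw_mv (h : Sp S S' φ β) (B : Matrix T.C T.C ℝ) [DecidablePred (jj T β)]
    (y : T.Cw S → ℝ) (c : {c // jj T β c}) :
    ((T.kw S B 1).submatrix (Subtype.val : {c // jj T β c} → _) Subtype.val *ᵥ
      fun c : {c // jj T β c} => y c.1) c = (T.kw S B 1 *ᵥ y) c.1 := by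
  rw [mulVec, mulVec, dotProduct, dotProduct]
  refine (sum_subtype (univ.filter (jj T β)) (by simp)
    fun q : T.Cw S => T.kw S B 1 c.1 q * y q).symm.trans (sum_filter_of_ne fun q _ z => ?_)
  rcases h.prt.cov q with b | b | ⟨b, rfl⟩
  · exact b.elim
  · exact b
  · exact absurd (by rw [h.kw_j B _ _ c.2, zero_mul]) z

end Lf

open Lf in
theorem lift (insa : INSA) : LIFT := by
  intro τ τ' T S S' st M φ β Ψ' G B o o' hm h1 hs a' hq hG
  classical
  have h : Sp S S' φ β := ⟨hm.cd, h1⟩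
  let ψ : Matrix S.W S'.W ℤ := of fun w w' => if w = β w' then 1 else 0
  have e1 : φ * ψ = 1 := by
    ext w w'
    simp only [mul_apply, ψ, of_apply, mul_ite, mul_one, mul_zero, sum_ite_eq', mem_univ, if_true,
      h1, one_apply]
  have a0 : T.Adm S st (T.tp S' S ψ Ψ') := a'.tp fun v' v z => by
    have : v' = β v := by_contra fun n => z (if_neg n)
    rw [this, ← Sh.cd_degree, ← Sh.cd_degree, h.cb]
  have K0 : ∀ y, (T.tw S' Ψ').u (T.hmM S S' (rl φ) *ᵥ y) =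
      T.hmM S S' (rl φ) *ᵥ (T.tw S (T.tp S' S ψ Ψ')).u y := fun y => by
    rw [← u_hmM0 hm o o', TS.tp_tp, e1, TS.tp_one]
  generalize T.tp S' S ψ Ψ' = Ψ at a0 K0
  have t0 := TS.lw_tri hs a0 o
  have t' := TS.lw_tri hs a' o'
  have d := h.det_kw (T := T) (T.stg st).A
  have d0 : (T.kw S (T.stg st).A 1).det ≠ 0 := TS.lw_A hs a0 o ▸ t0.det
  have ad : ∀ y y' : T.Cw S → ℤ, T.hm S S' φ (y + y') = T.hm S S' φ y + T.hm S S' φ y' :=
    fun y y' => by rw [TS.hm_eq, TS.hm_eq, TS.hm_eq, mulVec_add]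
  have za : ∀ y y' : T.Cw S → ℤ, zc (y + y') = zc y + zc y' :=
    fun y y' => funext fun c => Int.cast_add _ _
  have er : ∀ (y : T.Cw S → ℤ) (r : T.Cw S' → ℤ),
      (fun a => r a + (T.hm S S' φ y a - y (h.bc T a)) + ((1 : ℕ) : ℤ) * y (h.bc T a)) =
        T.hm S S' φ (y + Function.extend (h.bc T) r 0) := fun y r => by
    rw [ad, h.L_ext]
    exact funext fun a => by simp only [Pi.add_apply]; push_cast; ring
  refine (insa (T.Cw S) (T.Cw S') (fun _ => False) (jj T β) (h.bc T) (fun _ => 1)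
    (T.hmM S S' (rl φ)) 1 (T.sh S').K⁻¹ (T.sh S).K 0
    ((T.kw S (T.stg st).A 1).submatrix Subtype.val Subtype.val) (fun c => st c.1.1)
    (T.tw S Ψ).u (fun y a => T.hm S S' φ y a - y (h.bc T a)) (fun _ => 0)
    (fun _ z => (T.tw S' Ψ').u (zc z)) (fun _ z => G z) {0} B h.prt (fun _ => one_pos)
    (fun a a' => ?_) PosDef.one t'.pd.inv t0.pd (fun u => ?_) (right_ne_zero_of_mul (d ▸ d0))
    (fun c c' z => ?_) (fun c c' z => ?_) (h.zeta st) (fun y y' c k => ?_) (fun y r c => c.2.elim)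
    (fun y r => ?_) (fun _ => t'.summable) fun _ z => hG z).elim fun r ⟨x, e⟩ => ?_
  · rw [← TS.rl_hmM, rl, map_apply, h.L_bc]
    split_ifs <;> simp
  · have : qf (1 : Matrix {c : T.Cw S // False} _ ℝ) (fun c => u c.1) = 0 := by simp [qf]
    rw [this, zero_add]
    exact hq u
  · exact by_contra fun n => left_ne_zero_of_mul z (by rw [TS.stg_A, if_neg n])
  · exact hs.blk (left_ne_zero_of_mul z)
  · have k1 : ∀ y : T.Cw S → ℝ, (T.tw S Ψ).u y c.1 - (T.kw S (T.stg st).A 1 *ᵥ y) c.1 =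
        eval y ((T.lw S st Ψ).low c.1) := fun y => by
      rw [← TS.lw_A hs a0 o]
      exact sub_eq_of_eq_add' (congrFun (TS.u_low (T.lw S st Ψ) y) c.1)
    exact (congrArg (_ - ·) (h.kw_mv _ y c)).trans ((k1 y).trans ((t0.eval_low fun q hq =>
      k q (.inr ((TS.lw_lev q).symm.trans_lt (hq.trans_eq (TS.lw_lev c.1))))).trans
      ((k1 y').symm.trans (congrArg (_ - ·) (h.kw_mv _ y' c).symm))))
  · rw [er, zero_add, ← K0, h.rsh_eq, ← za]
    exact congrArg (T.tw S' Ψ').u (TS.zc_hm _).symm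
  have uo : ∀ y : T.Cw S → ℝ, (T.tw S (Ho.ot Ψ x)).u y = fun c => (T.tw S Ψ).u y c - x c := fun y =>
    (congrFun (congrArg (fun Φ (y : T.Cw S → ℝ) c => eval y (Φ c)) (Ho.off_Φ o Ψ x)) y).trans
      (TS.off_u (T.tw _ Ψ) x y)
  have ao := Ho.adm_ot hs.cl.1 a0 x
  refine ⟨Ho.ot Ψ x, T.hmM S S' (rl φ) *ᵥ x, ao, fun y c => ?_, ?_⟩
  · rw [uo, K0]
    exact congrFun (mulVec_sub (T.hmM S S' (rl φ)) ((T.tw S Ψ).u y) x) c
  have g1 : gs (1 : Matrix {c : T.Cw S // False} _ ℝ) 0 / dt (1 : Matrix {c : T.Cw S // False} _ ℝ)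
      = 1 := by simp [gs, qf, dt]
  rw [sum_singleton, g1, one_mul] at e
  have m := mul_le_mul_of_nonneg_left e (abs_nonneg (T.kw S' (T.stg st).A 1).det)
  rw [← mul_assoc, ← abs_mul, ← d] at m
  unfold TS.N
  rw [TS.Zc_eq, TS.Zc_eq, TS.lw_A hs a' o', TS.lw_A hs ao o, div_div_eq_mul_div,
    div_div_eq_mul_div, mul_comm, mul_comm (TS.S _ _), mul_div_assoc, mul_div_assoc]
  refine m.trans_eq (congrArg (fun t => |(T.kw S (T.stg st).A 1).det| * (t / dt (T.sh S).K⁻¹)) ?_)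
  refine Eq.trans (tsum_congr fun y => ?_) ((Equiv.addRight (Function.extend (h.bc T) r 0)).tsum_eq
    fun y => (T.lw S st (Ho.ot Ψ x)).wt y * G (T.hm S S' φ y))
  rw [if_pos (mem_singleton.2 (funext fun c => c.2.elim)), er, h.rsh_eq, ← za]
  exact congrArg (fun t => gs _ t * _) (uo _).symm

end Crest.Agent.N49.Wf

end
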