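import Crest.Agent.N49.Wf.Defs

/-!
# Row 49 (helper18): change of the phase
-/

set_option autoImplicit false

open Matrix Finset

noncomputable section

namespace Crest.Agent.N49.Wf

open Po Tw

theorem W3k.ee_le (t : ℝ) : ‖ee t - 1‖ ≤ 7 * |t| := by
  have h := Real.norm_exp_I_mul_ofReal_sub_one_le (x := 2 * Real.pi * t)
  have e : ee t = Complex.exp (Complex.I * (2 * Real.pi * t : ℝ)) := by
    unfold ee; congr 1; push_cast; ring
  rw [e]
  refine h.trans ?_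
  rw [Real.norm_eq_abs, abs_mul, abs_of_pos (by positivity : 0 < 2 * Real.pi)]
  exact mul_le_mul_of_nonneg_right (by linarith [Real.pi_lt_d2]) (abs_nonneg _)

theorem W3k.ee_sub (a b : ℝ) (n : ℤ) : ‖ee a - ee b‖ ≤ 7 * |a - b - n| := by
  have : ee a - ee b = ee b * (ee (a - b - n) - 1) := by
    have : ee a = ee b * ee (a - b - n) * ee n := by rw [← ee_add, ← ee_add]; congr 1; ring
    rw [this, ee_int]; ring
  rw [this, norm_mul, norm_ee, one_mul]
  exact W3k.ee_le _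

/-- expectations of close functions are close -/
theorem W3k.Ec_sub {τ : Type} {V : TS τ} (h : V.Tri) {a b : (V.C → ℤ) → ℂ} {Bad : Set (V.C → ℤ)}
    {ε K : ℝ} (ha : ∀ y, ‖a y‖ ≤ 1) (hb : ∀ y, ‖b y‖ ≤ 1)
    (hab : ∀ y, ‖a y - b y‖ ≤ ε + K * Bad.indicator 1 y) :
    ‖V.Ec a‖ - ε - K * V.P Bad ≤ ‖V.Ec b‖ := by
  have w0 : ∀ y, 0 ≤ V.wt y := fun y => (Real.exp_pos _).le
  have sm : ∀ {f : (V.C → ℤ) → ℂ}, (∀ y, ‖f y‖ ≤ 1) → Summable fun y => (V.wt y : ℂ) * f y :=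
    fun hf => .of_norm_bounded h.summable fun y => by
      rw [norm_mul, Complex.norm_real, Real.norm_of_nonneg (w0 y)]
      exact mul_le_of_le_one_right (w0 y) (hf y)
  have s1 : Summable fun y => V.wt y * Bad.indicator 1 y :=
    .of_nonneg_of_le (fun y => mul_nonneg (w0 y) (Set.indicator_nonneg (by simp) y))
      (fun y => mul_le_of_le_one_right (w0 y) (Set.indicator_le_self' (by simp) y)) h.summable
  have hZ := h.Z_pos
  have k : ‖V.Sc a - V.Sc b‖ ≤ ε * V.Z + K * V.S (Bad.indicator 1) := by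
    unfold TS.Sc TS.Z TS.S
    rw [← (sm ha).tsum_sub (sm hb), ← tsum_mul_left, ← tsum_mul_left,
      ← (h.summable.mul_left ε).tsum_add (s1.mul_left K)]
    refine tsum_of_norm_bounded ((h.summable.mul_left ε).add (s1.mul_left K)).hasSum fun y => ?_
    rw [← mul_sub, norm_mul, Complex.norm_real, Real.norm_of_nonneg (w0 y)]
    exact (mul_le_mul_of_nonneg_left (hab y) (w0 y)).trans_eq (by ring)
  have k2 := (norm_sub_norm_le _ _).trans k
  unfold TS.Ec TS.P TS.E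
  rw [norm_div, norm_div, Complex.norm_real, Real.norm_of_nonneg hZ.le, le_div_iff₀ hZ]
  have : (‖V.Sc a‖ / V.Z - ε - K * (V.S (Bad.indicator 1) / V.Z)) * V.Z =
      ‖V.Sc a‖ - ε * V.Z - K * V.S (Bad.indicator 1) := by field_simp
  linarith

theorem w3 : W3 := by
  intro τ Z V g Φ Γ z Bad ε η h hg hε hη hc
  classical
  let c : Z → ℝ := fun ζ =>
    if k : ∃ y, y ∉ Bad ∧ g y ≠ 0 ∧ z y = ζ then Φ k.choose - Γ k.choose else 0
  have n1 : ∀ y, ‖g y * ee (Φ y)‖ ≤ 1 := fun y => by rw [norm_mul, norm_ee, mul_one]; exact hg y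
  have n2 : ∀ y, ‖g y * ee (c (z y)) * ee (Γ y)‖ ≤ 1 := fun y => by
    rw [norm_mul, norm_mul, norm_ee, norm_ee, mul_one, mul_one]; exact hg y
  refine ⟨c, le_trans (by linarith) (W3k.Ec_sub (Bad := Bad) (ε := 7 * ε) (K := 2) h n1 n2
    fun y => ?_)⟩
  by_cases hy : y ∈ Bad
  · rw [Set.indicator_of_mem hy, Pi.one_apply]
    linarith [norm_sub_le (g y * ee (Φ y)) (g y * ee (c (z y)) * ee (Γ y)), n1 y, n2 y]
  rw [Set.indicator_of_notMem hy, mul_zero, add_zero]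
  by_cases g0 : g y = 0
  · simp only [g0, zero_mul, sub_zero, norm_zero]; positivity
  have k : ∃ y', y' ∉ Bad ∧ g y' ≠ 0 ∧ z y' = z y := ⟨y, hy, g0, rfl⟩
  obtain ⟨k1, k2, k3⟩ := k.choose_spec
  obtain ⟨n, hn⟩ := hc y k.choose hy k1 g0 k2 k3.symm
  have e : c (z y) = Φ k.choose - Γ k.choose := dif_pos k
  rw [mul_assoc, ← ee_add, ← mul_sub, norm_mul]
  refine (mul_le_of_le_one_left (norm_nonneg _) (hg y)).trans ((W3k.ee_sub _ _ n).trans ?_)
  rw [e, show Φ y - (Φ k.choose - Γ k.choose + Γ y) - n =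
    Φ y - Γ y - (Φ k.choose - Γ k.choose) - n by ring]
  linarith

end Crest.Agent.N49.Wf

end
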