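import Crest.Agent.N49.Wf.Defs
import Crest.Agent.N49.Sd.InsA
import Crest.Agent.N49.Sd.Regx
import Crest.Agent.N49.Sd.Enda
import Crest.Agent.N49.Un.Untw
import Crest.Agent.N49.En.CntA

/-!
# Row 49 (helper53): the witness on the free ring from its leaves
-/

set_option autoImplicit false

open Matrix MvPolynomial Finset

noncomputable section

namespace Crest.Agent.N49.Wf

open Po Tw Br N49.Top Sd Un

theorem fr_sz {Λ : Type} [Fintype Λ] [DecidableEq Λ] {s n : ℕ} {κ : ℝ} (h : 0 < κ)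
    (hn : (Fintype.card Λ + 1) ^ s ≤ n) : (FR Λ s κ).Sz n κ :=
  Sh.mono_sz dn_full (kb_dk (b := κ) fun _ _ => ⟨le_rfl, le_rfl⟩) h (Sh.dk_blk _)
    ((En.card_full Λ s).trans hn)

theorem fr_K {Λ : Type} [Fintype Λ] [DecidableEq Λ] (s : ℕ) (κ : ℝ) :
    (FR Λ s κ).K = diagonal fun _ => κ := by
  ext w w'
  rw [diagonal_apply]
  exact if_congr Subtype.ext_iff.symm rfl rfl

theorem N_half {σ : Type} {U : TS σ} (h : U.Tri) {η x : ℝ} (m : U.Mas η) (h1 : η ≤ 1) (x0 : 0 ≤ x)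
    {g : (U.C → ℤ) → ℝ} (k : x ≤ U.N g) : x / 2 ≤ U.E g := by
  have z := h.Zc_pos
  have a := (le_div_iff₀ z).1 k
  have b := (abs_le.1 m).2
  refine (le_div_iff₀ h.Z_pos).2 (le_trans ?_ a)
  nlinarith [mul_nonneg x0 z.le]

section
variable {s d Q : ℕ} {Λ : Type} [Fintype Λ] [DecidableEq Λ] {lt : Λ → Fin (d + 2) × ℕ}
  (h : La (grid (q1 d Q 1)) lt) (hs : 0 < s)

include h in
theorem ex_p : ∃ p0, ∀ t ∈ grid (q1 d Q 1), bl t = univ → p0 ∈ Br.lw lt t := by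
  obtain ⟨p0, e⟩ := h.cov (Function.update (fun _ => none) 0 (some 0)) (Br.mem_grid.2 fun i a e => by
    by_cases k : i = 0
    · subst k; simp only [Function.update_self, Option.some.injEq] at e; simp [q1, ← e]
    · simp [k] at e) 0 0 (Function.update_self ..)
  refine ⟨p0, fun t m k => ?_⟩
  obtain ⟨a, b⟩ := Option.ne_none_iff_exists'.1 (mem_bl.1 (k ▸ mem_univ (0 : Fin (d + 2))))
  have := Br.mem_grid.1 m 0 a b
  rw [mem_lw, e, b, show a = 0 by simpa [q1] using this]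

/-- from the top-word ring to the free ring, with a new phase -/
theorem stB (lift : LIFT) (fhm : FHM) (sec : SEC) (fnr : FNR) (w3 : W3) (tail : Sw.TAIL)
    {T : TS Unit} {st : T.C → ℕ} {M n m : ℕ} {sc : T.C → ℝ} {lam κ η t ε x : ℝ} (g : T.Stg st M)
    (hK : T.K = diagonal fun G => sc G ^ 2) (hc : ∀ G, sc G ≠ 0) (hl : 0 < lam) (hκ : 0 < κ)
    (k1 : 2 * κ * n * (s * #(grid (q1 d Q 1))) ≤ lam) (k2 : (Fintype.card Λ + 1) ^ s ≤ n)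
    (hm : T.HM st n κ η) (η0 : 0 ≤ η) (η1 : η ≤ 1 / 8) (ε0 : 0 ≤ ε) (x0 : 0 ≤ x)
    (k3 : (Fintype.card T.C * n + 1) * (m + 1) * κ ≤ t ^ 2)
    {Ψ' : T.Twd (R1 s d Q 1 fun _ _ => lam)} (ad : T.Adm _ st Ψ')
    {g' : (T.Cw (R1 s d Q 1 fun _ _ => lam) → ℤ) → ℂ} (hg : ∀ y, ‖g' y‖ ≤ 1)
    {Φ Γ : (T.Cw (R1 s d Q 1 fun _ _ => lam) → ℤ) → ℝ}
    (hx : x ≤ (T.lw _ st Ψ').N fun y => (g' y * ee (Φ y)).re)
    (hΓ : ∀ y y', g' y ≠ 0 → (∀ c, zw c.1.2 → y c = y' c) → (∀ c, xw c.1.2 →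
      ((T.tw _ Ψ').u (zc y) c - (T.tw _ Ψ').u (zc y') c) ^ 2 ≤ (2 * t) ^ 2 * T.K c.1.1 c.1.1) →
      ∃ k : ℤ, |Φ y - Γ y - (Φ y' - Γ y') - k| ≤ ε) :
    ∃ (Ψ : T.Twd (FR Λ s κ)) (c : (Kc T (R1 s d Q 1 fun _ _ => lam) zw → ℤ) → ℝ), T.Adm _ st Ψ ∧
      x / 2 - 7 * ε - 2 / 2 ^ m ≤ ‖(T.tw _ Ψ).Ec fun y => g' (dn h hs κ _ T y) *
        ee (c fun a => dn h hs κ _ T y a.1) * ee (Γ (dn h hs κ _ T y))‖ := by
  have sz := fr_sz (s := s) hκ k2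
  have o' : (R1 s d Q 1 fun _ _ => lam).Ok := gr_ok fun _ _ => hl
  obtain ⟨p0, hp⟩ := ex_p h
  obtain ⟨⟨β, hβ⟩, -, s3, -⟩ := sec _ Λ s κ _ (fun _ _ => lam) lt h hs 0 p0 Fin.zero_le hp
  have hm0 := (fhm Unit Λ (R1 s d Q 1 fun _ _ => lam) (h.le hs) s κ o'
    (fun w => (tw_dg (V := fun _ _ => lam) w).trans_le w.1.1.2)
    fun a => tw_dg (V := fun _ _ => lam) (h.le hs a)).1
  have c1 : (Fintype.card (FR Λ s κ).W : ℝ) ≤ n := by exact_mod_cast sz.card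
  have c2 : (Fintype.card (R1 s d Q 1 fun _ _ => lam).W : ℝ) ≤ s * #(grid (q1 d Q 1)) := by
    exact_mod_cast (Fintype.card_subtype_le _).trans (by simp)
  obtain ⟨Ψ, o, a, hu, hN⟩ := lift Λ Unit T (FR Λ s κ) (R1 s d Q 1 fun _ _ => lam) st M _ β Ψ'
    (fun y => (g' y * ee (Φ y)).re) 1 sz.toOk o' hm0 hβ g ad
    (fnr _ _ T _ _ _ sc κ lam hK hc (fr_K s κ) rfl hκ hl (fun w μ => by
      change |(if _ then 1 else 0 : ℤ)| ≤ 1
      split_ifs <;> simp) (le_trans (by gcongr) k1))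
    fun y => (Complex.abs_re_le_norm _).trans (by rw [norm_mul, norm_ee, mul_one]; exact hg y)
  have tr := TS.tw_tri g.cl a sz.toOk
  have n1 : ∀ y, ‖g' y * ee (Φ y)‖ ≤ 1 := fun y => by rw [norm_mul, norm_ee, mul_one]; exact hg y
  have e1 := N_half tr ((TS.lw_mas g a sz.toOk).1 (hm _ _ _ a sz)) (by linarith) x0
    (hx.trans (hN.trans_eq (TS.lw_N g a sz.toOk _)))
  have e2 := e1.trans ((tr.re_Ec (.of fun y => n1 (dn h hs κ _ T y))).symm.trans_le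
    (Complex.re_le_norm _))
  have K0 : ∀ F, 0 ≤ T.K F F := fun F => by rw [hK, diagonal_apply_eq]; positivity
  have vis : ∀ u : T.Cw (FR Λ s κ) → ℝ, (∀ p, u p ^ 2 ≤ t ^ 2 * T.K p.1.1 p.1.1) →
      ∀ c : T.Cw (R1 s d Q 1 fun _ _ => lam), kw c.1.2 →
        (T.hmM _ _ (rl (fm s κ _ (h.le hs))) *ᵥ u) c ^ 2 ≤ t ^ 2 * T.K c.1.1 c.1.1 := fun u b c k => by
    have e : ∀ p : T.Cw (FR Λ s κ), rl (fm s κ (R1 s d Q 1 fun _ _ => lam) (h.le hs)) c.1.2 p.1.2 =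
        if p.1.2.1 = Sy.ind (Br.lw lt (Wd.tr c.1.2)) then 1 else 0 := fun p =>
      (congrArg Int.cast (s3 c.1.2 p.1.2 k)).trans (by split_ifs <;> simp)
    rw [TS.hmM_mulVec]
    simp only [e, ite_mul, one_mul, zero_mul]
    by_cases z : ∃ p : T.Cw (FR Λ s κ), p.1.1 = c.1.1 ∧ p.1.2.1 = Sy.ind (Br.lw lt (Wd.tr c.1.2))
    · obtain ⟨p, p1, p2⟩ := z
      rw [sum_eq_single_of_mem p (mem_filter.2 ⟨mem_univ _, p1⟩) fun q a n => if_neg fun z => n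
        (Subtype.ext (Prod.ext ((mem_filter.1 a).2.trans p1.symm) (Subtype.ext (z.trans p2.symm)))),
        if_pos p2, ← p1]
      exact b p
    · rw [sum_eq_zero fun q a => if_neg fun b => z ⟨q, (mem_filter.1 a).2, b⟩, sq, zero_mul]
      exact mul_nonneg (sq_nonneg _) (K0 _)
  have c3 : (Fintype.card (T.Cw (FR Λ s κ)) : ℝ) ≤ Fintype.card T.C * n := by
    exact_mod_cast (Fintype.card_subtype_le _).trans ((Fintype.card_prod _ _).trans_le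
      (Nat.mul_le_mul_left _ sz.card))
  have gd : ∀ y, y ∉ {y | ∃ p, (Fintype.card (T.Cw (FR Λ s κ)) + 1) * (m + 1) *
      (T.tw _ Ψ).K p p < (T.tw _ Ψ).u (zc y) p ^ 2} → ∀ c, kw c.1.2 →
        ((T.tw _ Ψ').u (zc (dn h hs κ _ T y)) c - o c) ^ 2 ≤ t ^ 2 * T.K c.1.1 c.1.1 :=
    fun y b c k => by
      refine (congrArg (· ^ 2) ((congrArg (fun z => (T.tw _ Ψ').u z c - o c) (TS.zc_hm y)).trans
        (hu _ c).symm)).trans_le (vis _ (fun p => (not_lt.1 fun z => b ⟨p, z⟩).trans ?_) c k)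
      change _ * (T.K p.1.1 p.1.1 * (FR Λ s κ).K p.1.2 p.1.2) ≤ _
      rw [fr_K, diagonal_apply_eq, mul_comm (T.K _ _), ← mul_assoc]
      exact mul_le_mul_of_nonneg_right (le_trans (by gcongr) k3) (K0 _)
  obtain ⟨c, hc⟩ := w3 Λ _ (T.tw _ Ψ) (fun y => g' (dn h hs κ _ T y)) (fun y => Φ (dn h hs κ _ T y))
    (fun y => Γ (dn h hs κ _ T y))
    (fun y (a : Kc T (R1 s d Q 1 fun _ _ => lam) zw) => dn h hs κ _ T y a.1) _ ε _ tr
    (fun y => hg _) ε0 (tail _ _ T _ st M n m κ η Ψ g a sz hκ.le η0 η1 hm)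
    fun y y' b b' z _ e => hΓ _ _ z (fun c k => congrFun e ⟨c, k⟩) fun c k => by
      have a1 := gd y b c k.1
      have a2 := gd y' b' c k.1
      nlinarith [sq_nonneg ((T.tw _ Ψ').u (zc (dn h hs κ _ T y)) c - o c +
        ((T.tw _ Ψ').u (zc (dn h hs κ _ T y')) c - o c))]
  exact ⟨Ψ, c, a, le_trans (by rw [mul_one_div]; linarith) hc⟩

theorem dn_loc (sec : SEC) {κ : ℝ} {v : ℕ → Finset (Fin (d + 2)) → ℝ} {T : TS Unit} {x0 : Λ}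
    (hx : lt x0 = (1, 0)) {y y' : T.Cw (FR Λ s κ) → ℤ} (e : ∀ p, p.1.2.1 x0 = 0 → y p = y' p)
    (c : T.Cw (R1 s d Q 1 v)) (k : Wd.tr c.1.2 1 = none) :
    dn h hs κ v T y c = dn h hs κ v T y' c := by
  obtain ⟨p0, hp⟩ := ex_p h
  obtain ⟨-, s2, -⟩ := sec _ Λ s κ _ (fun j w => v j (bl w)) lt h hs 0 p0 Fin.zero_le hp
  refine sum_congr rfl fun p _ => ?_
  by_cases z : fm s κ (R1 s d Q 1 v) (h.le hs) c.1.2 p.1.2 = 0
  · exact (mul_eq_zero_of_left z _).trans (mul_eq_zero_of_left z _).symm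
  · refine congrArg _ (e p (by_contra fun n => ?_))
    have := mem_lw.1 (s2 c.1.2 p.1.2 z (Finsupp.mem_support_iff.2 n))
    rw [hx] at this
    exact Option.some_ne_none _ (this.symm.trans k)

theorem pw_dn (fhm : FHM) (sec : SEC) {κ lam : ℝ} (hl : 0 < lam) {T : TS Unit}
    {ω : Pt (Fin (d + 1))} (m : ω ∈ pts (q0 d Q 1)) (y : T.Cw (FR Λ s κ) → ℤ) :
    T.pw (R1 s d Q 1 fun _ _ => lam) (chi (fun _ _ => lam)
      (Function.extend Fin.succ ω fun _ => some 0)) (dn h hs κ (fun _ _ => lam) T y) =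
    T.pw _ (fp s κ fun a => if a ∈ Br.lw lt (Function.extend Fin.succ ω fun _ => some 0) then 1
      else 0) y := by
  obtain ⟨p0, hp⟩ := ex_p h
  obtain ⟨-, -, -, s4⟩ := sec _ Λ s κ _ (fun _ _ => lam) lt h hs 0 p0 Fin.zero_le hp
  obtain ⟨f1, f2⟩ := fhm Unit Λ (R1 s d Q 1 fun _ _ => lam) (h.le hs) s κ (gr_ok fun _ _ => hl)
    (fun w => (tw_dg (V := fun _ _ => lam) w).trans_le w.1.1.2)
    fun a => tw_dg (V := fun _ _ => lam) (h.le hs a)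
  have mp : (Function.extend Fin.succ ω fun _ => some 0) ∈ pts (q1 d Q 1) :=
    Br.mem_pts.2 fun i => by
      refine Fin.cases ⟨0, by simp [q1], ?_⟩ (fun j => ?_) i
      · exact Function.extend_apply' _ _ _ fun ⟨j, e⟩ => Fin.succ_ne_zero j e
      · obtain ⟨a, b, e⟩ := Br.mem_pts.1 m j
        have : j.succ = 1 ↔ j = 0 := (Fin.succ_injective _).eq_iff' rfl
        exact ⟨a, by simpa [q1, q0, this] using b, ((Fin.succ_injective _).extend_apply ..).trans e⟩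
  refine (Uw.pw_hm f1.cd _ y).trans (congrArg (T.pw _ · y) ((f2 _ (tw_pt (V := fun _ _ => lam)
    (dc_grid _) (pts_grid mp) (pts_bl mp) hs)).trans (congrArg _ (funext fun a => s4 _ a))))

end

/-- the product over the points -/
def Pp {s d Q : ℕ} (lam : ℝ) {T : TS Unit} (f : Pt (Fin (d + 1)) → (T.C → ℤ) → ℝ)
    (y : T.Cw (R1 s d Q 1 fun _ _ => lam) → ℤ) : ℝ := ∏ ω ∈ pts (q0 d Q 1), f ω
  (T.pw (R1 s d Q 1 fun _ _ => lam) (chi (fun _ _ => lam)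
    (Function.extend Fin.succ ω fun _ => some 0)) y)

set_option maxHeartbeats 400000 in
/-- the insertion -/
theorem stA (tan : TANR) (nrm : NRM) (kwt : KWT) (pos : POS) {s d Q M1 M2 : ℕ} (hs : 0 < s)
    {T1 T2 : TS Unit} {st1 : T1.C → ℕ} {st2 : T2.C → ℕ} {D : Tan T1 T2 (Fin d × Fin Q)}
    {v1 v2 : ℕ → Finset (Fin (d + 2)) → ℝ} {π : T1.C → ℤ} {c : ℤ} {A : Finset ℕ} {α : ℝ}
    {Φ : (T1.Cw (R1 s d Q 1 v1) → ℤ) → ℝ} {Bl : Set (T1.Cw (R1 s d Q 1 v1) → ℤ)}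
    {δ β X a lam : ℝ} {H : Set (Kc T2 (R1 s d Q 1 v2) zw → ℤ)} (s1 : T1.Stg st1 M1)
    (s2 : T2.Stg st2 M2) (ok : D.Ok (fun _ => 1) st1 st2 0) (adq : D.Adq st1 st2) (hid : D.Id)
    (nb : D.Nb X) (hπ : ∀ F, π F ≠ 0 → T1.lev F = 1) (hα : 0 < α) (hl : 0 < lam)
    (hv : ∀ j B, a ≤ v1 j B ∧ a ≤ v2 j B)
    (ha : 2 * lam * (1 + X ^ 2 * (s * #(grid (q1 d Q 1))) ^ 2 * Fintype.card T2.C) ≤ a)
    (δ0 : 0 ≤ δ) (hβ : 0 < β) (hw : Wit s d Q T1 st1 v1 (fA ⟨T1, π, c⟩ A α) Φ Bl δ)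
    (hH : β ≤ (fb T2 (R1 s d Q 1 v2) zw st2 (tpw T2 _) 0).N (H.indicator 1))
    (hB : ∀ y : T2.Cw (R1 s d Q 1 v1) → ℤ, (fun c => y c.1) ∈ H →
      (D.rn (Sd.lt s d Q hs 1)).kap (R1 s d Q 1 v1) y ∈ Bl) :
    ∃ (Ψ : T2.Twd (R1 s d Q 1 fun _ _ => lam)) (r : T1.Cw (R1 s d Q 1 v1) → ℤ)
      (ρ o : T2.Cw (R1 s d Q 1 v1) → ℝ) (g : (T2.Cw (R1 s d Q 1 fun _ _ => lam) → ℤ) → ℂ)
      (f : Pt (Fin (d + 1)) → (T2.C → ℤ) → ℝ), T2.Adm _ st2 Ψ ∧ (∀ c, zw c.1.2 → r c = 0) ∧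
      (∀ c, zw c.1.2 → ρ c = 0) ∧ (∀ (y : T2.Cw (R1 s d Q 1 v1) → ℝ) c, kw c.1.2 →
        (T2.tw _ Ψ).u y c = (T2.tw _ (tpw T2 (R1 s d Q 1 v1))).u (y + ρ) c - o c) ∧
      (∀ y, ‖g y‖ ≤ 1) ∧ (∀ y, g y ≠ 0 → (fun c => y c.1) ∈ H) ∧
      (∀ y y', (∀ c, Wd.tr c.1.2 1 = none → y c = y' c) → g y = g y') ∧
      (∀ ω y, ‖(f ω y : ℂ)‖ ≤ 1) ∧ α ^ Q ^ d * (β / 2 * δ) ≤ (T2.lw _ st2 Ψ).N fun y =>
        (g y * Pp lam f y * ee (Φ (r + (D.rn (Sd.lt s d Q hs 1)).kap (R1 s d Q 1 v1) y))).re := by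
  obtain ⟨α0, w1, w2, w⟩ := hw
  have a0 : 0 < a := lt_of_lt_of_le (by positivity) ha
  have p1 : ∀ j B, 0 < v1 j B := fun j B => a0.trans_le (hv j B).1
  have p2 : ∀ j B, 0 < v2 j B := fun j B => a0.trans_le (hv j B).2
  have fb' : ∀ (V : Ctr) y, 0 ≤ fA V A α y ∧ fA V A α y ≤ 1 / α := fun V y =>
    ⟨div_nonneg (ind_nonneg _ _) hα.le, div_le_div_of_nonneg_right (ind_le _ _) hα.le⟩
  have o1 : (R1 s d Q 1 v1).Ok := gr_ok p1
  have o2 : (R1 s d Q 1 v2).Ok := gr_ok p2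
  have o' : (R1 s d Q 1 fun _ _ => lam).Ok := gr_ok fun _ _ => hl
  have t2 := Fx.fb_tri (S := R1 s d Q 1 v2) zw s2 o2 (Fx.adm_tpw s2 _) 0
  obtain ⟨Y, hY, hY'⟩ := Rx.exists_fin t2 hβ hH
  obtain ⟨ok', rid⟩ := tan _ _ T1 T2 D (R1 s d Q 1 v1) (Sd.lt s d Q hs 1) st1 st2 0 o1 s1.cl.1 s2.cl.1
    ((show (fun _ => 1) = fun t => (R1 s d Q 1 v1).dg (Sd.lt s d Q hs 1 t) from
      funext fun t => (tw_dg (V := fun j w => v1 j (bl w)) (Sd.lt s d Q hs 1 t)).symm) ▸ ok)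
  obtain ⟨-, kw'⟩ := kwt s d _ (fun j w => v1 j (bl w)) (dc_grid (q1 d Q 1)) fun _ _ => p1 _ _
  have ss : ∀ i : Fin d, i.succ.succ ≠ 1 := fun i e => by simpa using congrArg Fin.val e
  have cp : #(pts (q1 d Q 1)) = Q ^ d ∧ #(pts (q0 d Q 1)) = Q ^ d := by
    simp [Un.card_pts, q1, q0, Fin.prod_univ_succ, Fin.succ_ne_zero, ss]
  have pf : ∀ z, 0 ≤ PF T1 s (q1 d Q 1) v1 (fun _ => fA ⟨T1, π, c⟩ A α) z ∧
      PF T1 s (q1 d Q 1) v1 (fun _ => fA ⟨T1, π, c⟩ A α) z ≤ (1 / α) ^ Q ^ d :=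
    fun z => cp.1 ▸ prod_le_pow _ fun _ => fb' ⟨T1, π, c⟩ _
  have idl : (R1 s d Q 1 v1).Idl zw := fun w m k r w' i =>
    ⟨Rx.idl (fun j w => v1 j (bl w)) 0 w m k.1 r w' i, Rx.idl (fun j w => v1 j (bl w)) 1 w m k.2 r w' i⟩
  have n1 : ∀ z, |(α0 z * ee (Φ z)).re| ≤ 1 := fun z => (Complex.abs_re_le_norm _).trans (by
    rw [norm_mul, norm_ee, mul_one]; exact w1 z)
  obtain ⟨Ψ', r, ρ, o, adm, hr, hρ, hq, -, -, hi⟩ := @insA3 Unit T1 T2 (R1 s d Q 1 v1) zw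
    (inferInstanceAs (DecidablePred (zw (s := s) (D := grid (q1 d Q 1))))) st1 st2 M1 M2
    (D.rn (Sd.lt s d Q hs 1)) (T1.tw0 _) (R1 s d Q 1 v2).K (R1 s d Q 1 fun _ _ => lam).K Y
    (fun _ z => (α0 z * ee (Φ z)).re * PF T1 s (q1 d Q 1) v1 (fun _ => fA ⟨T1, π, c⟩ A α) z)
    (1 * (1 / α) ^ Q ^ d) o1 o2 o' idl s1 s2 ok' (fun F μ k => adq F μ fun G m z => k G m (by
      change rename _ (D.mon G) = 0
      rw [z, map_zero])) (rid hid) (s1.adm o1) (fun y c k => kw' T1 s1.cl.1 y c k.1)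
    (nrm _ _ s _ (fun j w => v1 j (bl w)) (fun j w => v2 j (bl w)) T1 T2 D _ zw st1 st2 _ _ X a lam
      nb hl (fun _ _ => hv _ _) ha) fun _ z => by
        rw [abs_mul, abs_of_nonneg (pf z).1]
        exact mul_le_mul (n1 z) (pf z).2 (pf z).1 zero_le_one
  obtain ⟨x, hx'⟩ := pos s d Q 1 0 T1 T2 st1 st2 v1 (D.rn (Sd.lt s d Q hs 1)) π c A α lam r p1
    s2.cl.1 ok' hπ
  have i1 : β / 2 * δ ≤ _ := le_trans (le_trans (mul_le_mul_of_nonneg_right hY' δ0) (by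
    rw [sum_mul]
    refine sum_le_sum fun b k => mul_le_mul_of_nonneg_left (w _ (hB _ ?_))
      (div_nonneg (TS.wt_pos _ _).le t2.Zc_pos.le)
    exact Set.mem_of_eq_of_mem (funext fun c => Ip.gl_pos (T := T2) (S := R1 s d Q 1 v1) b 0 c.2)
      (hY b k))) hi
  classical
  refine ⟨Ψ', r, ρ, o, fun y => if (fun c : Kc T2 (R1 s d Q 1 v1) zw => y c.1) ∈ Y then
    α0 (r + (D.rn (Sd.lt s d Q hs 1)).kap (R1 s d Q 1 v1) y) else 0, fun ω y =>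
    α * fA ⟨T2, (D.rn (Sd.lt s d Q hs 1)).pi π, x ω⟩ A α y, adm, hr, fun c k => hρ c (.inl k),
    hq kw (kw' T1 s1.cl.1), fun y => ?_, fun y z => hY _ (by_contra fun n => z (if_neg n)),
    fun y y' l => ?_, fun ω y => ?_, (mul_le_mul_of_nonneg_left i1 (by positivity)).trans_eq ?_⟩
  · by_cases k : (fun c : Kc T2 (R1 s d Q 1 v1) zw => y c.1) ∈ Y
    · exact (congrArg _ (if_pos k)).trans_le (w1 _)
    · exact (congrArg _ (if_neg k)).trans_le (by simp)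
  · refine if_congr (iff_of_eq (congrArg (· ∈ Y) (funext fun c => l c.1 c.2.2)))
      (w2 _ _ fun c k => ?_) rfl
    exact congrArg (r c + ·) (Ip.kap_p (Rx.idl (fun j w => v1 j (bl w)) 1) l k)
  · rw [Complex.norm_real, Real.norm_of_nonneg (mul_nonneg hα.le (fb' _ _).1)]
    exact (mul_le_mul_of_nonneg_left (fb' _ _).2 hα.le).trans_eq (mul_one_div_cancel hα.ne')
  · refine (mul_div_assoc _ _ _).symm.trans (congrArg (· / _) (tsum_mul_left.symm.trans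
      (tsum_congr fun y => (mul_left_comm _ _ _).trans (congrArg _ ?_))))
    by_cases k : (fun c : Kc T2 (R1 s d Q 1 v1) zw => y c.1) ∈ Y
    · refine (congrArg _ (if_pos k)).trans (Eq.trans ?_
        (congrArg (fun z : ℂ => (z * _ * _).re) (if_pos k).symm))
      rw [hx', mul_right_comm, Complex.re_mul_ofReal, mul_left_comm]
      refine congrArg _ ?_
      simp only [Pp, prod_mul_distrib, prod_const, cp.2]
      rfl
    · exact (congrArg _ (if_neg k)).trans (Eq.trans (by simp)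
        (congrArg (fun z : ℂ => (z * _ * _).re) (if_neg k).symm))

theorem wita (lift : LIFT) (fhm : FHM) (sec : SEC) (fnr : FNR) (w3 : W3) (tail : Sw.TAIL)
    (tan : TANR) (nrm : NRM) (kwt : KWT) (pos : POS) : WITA := by
  intro s d Q M1 M2 n m hs Λ _ _ lt h x0 T1 T2 st1 st2 D v1 v2 π c A α Φ Γ Bl δ β X a lam κ η B t H
    hx s1 s2 ok adq hid nb hπ hα hl hκ hv ha k1 k2 hm η0 η1 δ0 hβ B0 t0 k3 hw hH hB hΓ
  obtain ⟨Ψ', r, ρ, o, g0, f, adm, hr, hρ, hq, g1, g2, g3, f1, hi⟩ :=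
    stA tan nrm kwt pos hs s1 s2 ok adq hid nb hπ hα hl hv ha δ0 hβ hw hH hB
  obtain ⟨sc, hK, hc⟩ := nb.2
  obtain ⟨Ψ, cz, ad, hf⟩ := stB h hs lift fhm sec fnr w3 tail s2 hK
    (fun G => (hc G).1) hl hκ k1 k2 hm η0 η1 (mul_nonneg B0 t0) (by positivity) k3 adm
    (g' := fun y => g0 y * Pp lam f y) (fun y => by
      rw [norm_mul, Pp, Complex.ofReal_prod, norm_prod]
      exact mul_le_one₀ (g1 y) (by positivity) (prod_le_one (by simp) fun _ _ => f1 _ _))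
    (Γ := Γ) hi fun y y' z e b => hΓ r ρ y y' hr hρ (g2 y (left_ne_zero_of_mul z)) e
      fun c k => le_of_eq_of_le (congrArg (· ^ 2) ((sub_sub_sub_cancel_right _ _ (o c)).symm.trans
        (congrArg₂ (· - ·) (hq _ c k.1).symm (hq _ c k.1).symm))) (b c k)
  refine ⟨Ψ, fun y => g0 (dn h hs κ _ T2 y) * ee (cz fun a => dn h hs κ _ T2 y a.1),
    fun ω y => f ω y, ad, fun y => ?_, fun y y' e => ?_, fun y z => g2 _ (left_ne_zero_of_mul z),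
    f1, le_trans (le_of_eq (by ring)) (hf.trans_eq (congrArg _ (congrArg _ (funext fun y => ?_))))⟩
  · rw [norm_mul, norm_ee, mul_one]; exact g1 _
  · have l := dn_loc h hs sec (v := fun _ _ => lam) hx e
    exact congrArg₂ (· * ·) (g3 _ _ l) (congrArg (fun z => ee (cz z)) (funext fun c => l c.1 c.2.2))
  · rw [mul_right_comm (g0 _), Pp, Complex.ofReal_prod]
    exact congrArg₂ (· * ·) (congrArg _ (prod_congr rfl fun ω k =>
      congrArg (fun z => (f ω z : ℂ)) (pw_dn h hs fhm sec hl k y))) rfl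

end Crest.Agent.N49.Wf

end
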