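import Crest.Agent.N49.Wf.Df2
import Crest.Agent.N49.Wf.Wa
import Crest.Agent.N49.Wf.W3
import Crest.Agent.N49.Sw.Tail
import Crest.Agent.N49.Sd.Relb
import Crest.Agent.N49.Sd.Dil
import Crest.Agent.N49.Tw.Fin

/-!
# Row 49 (helper14): the witness with a phase that differs from the datum by a trivial form
-/

set_option autoImplicit false

open Matrix MvPolynomial Finset

noncomputable section

namespace Crest.Agent.N49.Wf

open Po Tw Br N49.Top Sd Md Rm

namespace Wg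

/-- two configurations of one fibre -/
theorem diff {L C : Type} [Fintype L] [DecidableEq L] [Fintype C] [DecidableEq C] {T : TT L C}
    {x : L} {y0 y y' : C → ℤ} {ρ : C → ℝ} {G : Fm L C} {B t : ℝ} (ok : T.Ok)
    (hG : T.Dat univ {x} G) (hR : T.Rel univ {x} y0 1 B G) (e : ∀ c, x ∉ T.ty c → y c = y0 c)
    (e' : ∀ c, x ∉ T.ty c → y' c = y c) (hρ : ∀ c, x ∉ T.ty c → ρ c = 0) (ht : 0 < t)
    (hs : ∀ c, x ∈ T.ty c → |T.Φ (c0 x (zc y + ρ)) c - T.Φ (c0 x (zc y' + ρ)) c| ≤ t) :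
    ∃ k : ℤ, |G (c0 x (zc y)) - G (c0 x (zc y')) - k| ≤ t * B := by
  have key : ∀ (F : Fm L C) (r : C → ℝ), T.Lin x F → (∀ c, x ∉ T.ty c → r c = 0) →
      F (c0 x (zc fun c => if x ∈ T.ty c then y c - y' c else y c)) =
        F (c0 x (zc y + r)) - F (c0 x (zc y' + r)) := fun F r h k => by
    have := h 1 (-1) (c0 x (zc y + r)) (c0 x (zc y' + r)) (by
      rintro (c | l) a
      · simp [c0, zc, e' c a]
      · rfl)
    rw [one_mul, neg_one_mul, ← sub_eq_add_neg] at this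
    refine Eq.trans (congrArg F (funext ?_)) this
    rintro (c | l)
    · by_cases a : x ∈ T.ty c
      · simp [TT.cmb, TT.tv, c0, zc, a]; ring
      · simp [TT.cmb, TT.tv, c0, zc, a, k c a]
    · by_cases a : l = x
      · simp [TT.cmb, TT.tv, c0, a]
      · simp [TT.cmb, TT.tv, c0, a, Ne.symm a]
  obtain ⟨k, h⟩ := relb L C T x y0 (fun c => if x ∈ T.ty c then y c - y' c else y c) G B t ok hG hR
    (fun c a => (if_neg a).trans (e c a)) ht fun c a => by
      rw [key (fun p => T.Φ p c) ρ ((ok.dat c ⟨x, a⟩).2 x a) hρ]; exact hs c a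
  rw [key G 0 (hG.2 x (mem_singleton_self x)) fun _ _ => rfl, add_zero, add_zero] at h
  exact ⟨k, h⟩

section rd
variable {τ L : Type} [Fintype τ] [DecidableEq τ] {B : Bs L} {W : Finset (Finset τ)} {s : ℕ} {κ : ℝ}

theorem rd_zc (y : B.T.Cw (FR (Option τ) s κ) → ℤ) : rd B W s κ (zc y) = zc (rd B W s κ y) :=
  funext fun w => by simp [rd, Sw.ex, zc]

theorem rd_loc {y y' : B.T.Cw (FR (Option τ) s κ) → ℤ} {a : τ}
    (h : ∀ p, p.1.2.1 (some a) = 0 → y p = y' p) {w : B.SC W} (k : a ∉ w.1.2) :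
    rd B W s κ y w = rd B W s κ y' w := sum_congr rfl fun p m => h p (by
  have : p.1.2.1 = (Sy.ind w.1.2).mapDomain some := (mem_filter.1 m).2.2
  rw [this, Finsupp.mapDomain_apply (Option.some_injective _), Sy.ind_apply, if_neg k])

theorem rd_le {u : B.T.Cw (FR (Option τ) s κ) → ℝ} {r : ℝ} (r0 : 0 ≤ r) (h : ∀ p, |u p| ≤ r)
    (w : B.SC W) : |rd B W s κ u w| ≤ r := by
  unfold rd Sw.ex
  rcases eq_empty_or_nonempty (univ.filter fun p : B.T.Cw (FR (Option τ) s κ) =>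
    id p.1.1 = w.1.1 ∧ (FR (Option τ) s κ).ty p.1.2 = (Sy.ind w.1.2).mapDomain some) with
    z | ⟨p, z⟩
  · rw [z, sum_empty, abs_zero]; exact r0
  · rw [sum_eq_single_of_mem p z fun q a n => (n (Subtype.ext (Prod.ext
      ((mem_filter.1 a).2.1.trans (mem_filter.1 z).2.1.symm)
      (Subtype.ext ((mem_filter.1 a).2.2.trans (mem_filter.1 z).2.2.symm))))).elim]
    exact h p
end rd

theorem zero_mem {d Q : ℕ} {A : Finset (Lx d Q)} : (0 : Lb d) ∈ A.image bk ↔ none ∈ A := by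
  refine ⟨fun h => ?_, fun h => mem_image.2 ⟨none, h, rfl⟩⟩
  obtain ⟨a, m, e⟩ := mem_image.1 h
  cases a with
  | none => exact m
  | some t => exact absurd e (Fin.succ_ne_zero _)

theorem num {s n e c : ℕ} (h2 : 2 ≤ n) (he : 4 * s + 28 ≤ e) (hc : c ≤ 2 ^ n * n ^ (2 * s)) :
    ((c : ℝ) + 1) * (((3 * n + 7 : ℕ) : ℝ) + 1) * (1 / 2 ^ n ^ e) ≤
      (1 / 2 ^ (n * s + (4 * n + 10))) ^ 2 := by
  have a : n ^ (2 * s) ≤ 2 ^ (n * (2 * s)) := by
    rw [pow_mul 2 n]; exact Nat.pow_le_pow_left Nat.lt_two_pow_self.le _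
  have b : c + 1 ≤ 2 ^ (n + n * (2 * s) + 1) := by
    have := hc.trans (Nat.mul_le_mul_left _ a)
    have := Nat.one_le_two_pow (n := n + n * (2 * s))
    rw [pow_succ, pow_add] at *; omega
  have f : (c + 1) * (3 * n + 7 + 1) ≤ 2 ^ (n + n * (2 * s) + 1 + (3 * n + 7 + 1)) := by
    rw [pow_add _ _ (3 * n + 7 + 1)]; exact Nat.mul_le_mul b Nat.lt_two_pow_self.le
  have g : n * (4 * s + 27) ≤ n ^ e :=
    (Nat.mul_le_mul_left _ (Nat.lt_two_pow_self.le.trans (Nat.pow_le_pow_left h2 _))).trans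
      (by rw [← pow_succ']; exact Nat.pow_le_pow_right (by omega) he)
  have := Un.half_mul (a := (n * s + (4 * n + 10)) * 2) (b := n ^ e) f (by nlinarith)
  rw [_root_.one_div_pow, ← pow_mul, mul_comm]
  exact_mod_cast this

end Wg

open Wg in
/-- **change of the phase of the witness** -/
theorem witg {s d : ℕ} (h : WITF s d) : WITG s d := by
  intro M
  obtain ⟨e0, h⟩ := h M
  obtain ⟨C, hC, -⟩ := mastA M
  refine ⟨e0 + (4 * s + 28), fun e he => ?_⟩
  obtain ⟨K, h⟩ := h e (by omega)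
  refine ⟨K + (2 * s + 1) * C + e + 2, fun ε o f H n Y p a Γ hΓ hR => ?_⟩
  have n2 : 2 ≤ n := p.c.n2.trans p.le
  have stg := p.fo.ok.old.stg
  obtain ⟨Ψ, g, φ, ρ, u, ad, g1, g2, g3, φ1, ρ0, hu, big⟩ := h ε o f H n Y ⟨p.ok, p.c, p.le, p.fo,
    p.M, Un.rg_mono stg p.rg (Nat.pow_le_pow_right (by omega) (by omega)), p.sz, p.ov⟩ a
  have κ0 : (0 : ℝ) < 1 / 2 ^ n ^ e := by positivity
  have sz := fr_sz (Λ := Lp d o.Q) (s := s) (n := n ^ (2 * s)) κ0 (by
    have : Fintype.card (Lx d o.Q) ≤ n := p.c.τ.trans p.le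
    rw [pow_mul, Fintype.card_option]
    exact Nat.pow_le_pow_left (by nlinarith) _)
  have rg : f.T.RgS f.st f.M C (n ^ (2 * s)) (1 / 2 ^ n ^ e) (1 / 8) :=
    rg_of p.rg stg (by omega) (Un.pw_one n2 _) (by omega)
      (Un.half_le (Nat.pow_le_pow_right (by omega) (by omega)))
      (le_trans (Un.half_le (a := 3) (le_trans (by nlinarith)
        (Nat.pow_le_pow_right (by omega) (show 2 ≤ _ by omega)))) (by norm_num))
  have hm : f.T.HM f.st (n ^ (2 * s)) (1 / 2 ^ n ^ e) (1 / 8) := fun _ S Ψ a z =>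
    hC _ _ _ S _ Ψ _ _ _ ⟨p.M ▸ stg, a, by norm_num, by norm_num, p.M ▸ rg, z⟩
  have tr := TS.tw_tri stg.cl ad sz.toOk
  have bs := p.fo.bs
  have gd : ∀ y, y ∉ {y | ∃ q, (Fintype.card (f.T.Cw (FR (Lp d o.Q) s (1 / 2 ^ n ^ e))) + 1) *
      (((3 * n + 7 : ℕ) : ℝ) + 1) * (f.T.tw _ Ψ).K q q < (f.T.tw _ Ψ).u (zc y) q ^ 2} →
      ∀ w : f.X, |f.S.Φ (c0 0 (zc (rd f.toBs _ s _ y) + ρ)) w - u w| ≤ 1 / 2 ^ (4 * n + 10) :=
    fun y b w => by
      rw [← rd_zc, ← hu, abs_mul]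
      have l1 : |∏ b ∈ w.1.2, f.la (bk b)| ≤ 2 ^ (n * s) := by
        rw [abs_prod]
        refine (prod_le_prod (g := fun _ => (2 : ℝ) ^ n) (fun _ _ => abs_nonneg _)
          fun b _ => ?_).trans ?_
        · rw [abs_of_nonneg (le_trans (by positivity) (bs.la _).1)]; exact (bs.la _).2
        · rw [prod_const, pow_mul]
          exact pow_le_pow_right₀ (one_le_pow₀ one_le_two) ((Kx.wf p.c).le _ w.2.2.1)
      have l2 := rd_le (B := f.toBs) (u := (f.T.tw _ Ψ).u (zc y))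
        (r := 1 / 2 ^ (n * s + (4 * n + 10))) (by positivity) (fun q => abs_le_of_sq_le_sq
          ((not_lt.1 fun z => b ⟨q, z⟩).trans (by
            change _ * (f.T.K q.1.1 q.1.1 * (FR (Lp d o.Q) s _).K q.1.2 q.1.2) ≤ _
            rw [fr_K, diagonal_apply_eq, bs.old.K, one_apply_eq, one_mul]
            exact num n2 (by omega) ((Fintype.card_subtype_le _).trans
              ((Fintype.card_prod _ _).trans_le (Nat.mul_le_mul p.fo.C sz.card)))))
          (by positivity)) w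
      refine (mul_le_mul l1 l2 (abs_nonneg _) (by positivity)).trans_eq ?_
      rw [pow_add]; field_simp
  obtain ⟨c, hc⟩ := w3 _ _ (f.T.tw _ Ψ) (fun y => g y * ∏ ω, φ ω (f.T.pw _ (fp s _ (xo ω)) y))
    (fun y => f.F a (c0 0 (zc (rd f.toBs _ s _ y)))) (fun y => Γ (c0 0 (zc (rd f.toBs _ s _ y))))
    (fun y (q : {q : f.T.Cw (FR (Lp d o.Q) s (1 / 2 ^ n ^ e)) // q.1.2.1 (some none) = 0}) => y q.1)
    _ (1 / 2 ^ (4 * n + 9) * 2 ^ n) _ tr
    (fun y => by
      rw [norm_mul, norm_prod]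
      exact mul_le_one₀ (g1 y) (by positivity) (prod_le_one (fun _ _ => norm_nonneg _)
        fun _ _ => φ1 _ _)) (by positivity)
    (Sw.tail _ _ f.T _ f.st f.M _ (3 * n + 7) _ _ Ψ stg ad sz κ0.le (by norm_num) le_rfl hm)
    fun y y' b b' z _ e => by
      obtain ⟨y0, m, k⟩ := g3 y (left_ne_zero_of_mul z)
      obtain ⟨j, l⟩ := diff (ρ := ρ) (t := 1 / 2 ^ (4 * n + 9)) (Idf.sy_ok bs (Kx.wf p.c))
        ((p.fo.dat p.c a).sub hΓ) (hR y0 m) (fun w i => k w fun i' => i (zero_mem.2 i'))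
        (y' := rd f.toBs _ s _ y') (fun w i => rd_loc (fun q t => (congrFun e ⟨q, t⟩).symm)
          fun i' => i (zero_mem.2 i')) (fun w i => ρ0 w fun i' => i (zero_mem.2 i'))
        (by positivity) fun w _ => by
          have := (abs_sub _ _).trans (add_le_add (gd y b w) (gd y' b' w))
          rw [sub_sub_sub_cancel_right] at this
          refine this.trans_eq ?_
          rw [pow_succ _ (4 * n + 9)]; field_simp; norm_num
      exact ⟨j, l⟩
  refine ⟨Ψ, fun y => g y * ee (c fun q => y q.1), φ, ad, fun y => ?_, fun y y' k => ?_,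
    fun y z => g3 y (left_ne_zero_of_mul z), φ1, ?_⟩
  · rw [norm_mul, norm_ee, mul_one]; exact g1 y
  · exact congrArg₂ (fun a b => a * ee (c b)) (g2 y y' k) (funext fun q => k _ q.2)
  · simp only [mul_right_comm (g _) (ee (c _))]
    refine le_trans (le_trans ?_ (sub_le_sub_right (sub_le_sub_right big _) _)) hc
    have e1 : (1 : ℝ) / 2 ^ (4 * n + 9) * 2 ^ n = 1 / 2 ^ (3 * n) / 512 := by
      rw [show 4 * n + 9 = 3 * n + n + 9 by ring, pow_add, pow_add]; field_simp; norm_num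
    have e2 : ∀ j : ℕ, (1 : ℝ) / 2 ^ (3 * n + j) = 1 / 2 ^ (3 * n) / 2 ^ j := fun j => by
      rw [pow_add, div_div]
    have : (0 : ℝ) < 1 / 2 ^ (3 * n) := by positivity
    rw [e1, e2, e2, e2]
    generalize (1 : ℝ) / 2 ^ (3 * n) = t at this ⊢
    linarith

end Crest.Agent.N49.Wf

end
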