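import Crest.Agent.N49.Wf.Df2

/-!
# Row 49 (helper85): the letters name the grid
-/

set_option autoImplicit false

open Finset

noncomputable section

namespace Crest.Agent.N49.Wf

open Po Tw Br N49.Top Sd

namespace Lq

variable {d Q : ℕ}

theorem ne1 (i : Fin d) : i.succ.succ ≠ 1 := fun e => Fin.succ_ne_zero _ (Fin.succ_injective _ e)

theorem lp0 : lp (none : Lp d Q) = (0, 0) := rfl
theorem lp1 : lp (some none : Lp d Q) = (1, 0) := rfl
theorem lp2 (t : Fin d × Fin Q) : lp (some (some t) : Lp d Q) = (t.1.succ.succ, t.2.1) := rfl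

theorem la : La (grid (q1 d Q 1)) (lp (d := d) (Q := Q)) := by
  refine ⟨?_, fun t m i n e => ?_, fun a => Br.mem_grid.2 fun i n e => ?_⟩
  · rintro (_ | a) (_ | b) e
    exacts [rfl, (Fin.succ_ne_zero _ (congrArg Prod.fst e).symm).elim,
      (Fin.succ_ne_zero _ (congrArg Prod.fst e)).elim, congrArg some (gl_inj e)]
  · have k := Br.mem_grid.1 m i n e
    rcases Fin.eq_zero_or_eq_succ i with rfl | ⟨i, rfl⟩
    · exact ⟨none, by rw [lp0, show n = 0 by simpa [q1] using k]⟩
    · rcases Fin.eq_zero_or_eq_succ i with rfl | ⟨i, rfl⟩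
      · exact ⟨some none, by rw [lp1, show n = 0 by simpa [q1] using k]; rfl⟩
      · exact ⟨some (some (i, ⟨n, by simpa [q1, ne1] using k⟩)), rfl⟩
  · by_cases k : i = (lp a).1
    · subst k
      rw [Function.update_self, Option.some.injEq] at e
      subst e
      rcases a with _ | _ | t <;> simp [lp0, lp1, lp2, q1, ne1]
    · simp [k] at e

/-- the point of `ω` -/
def pe (ω : Fin d → Fin Q) : Pt (Fin (d + 1)) := Fin.cons (some 0) fun i => some (ω i).1

theorem prod_pe (G : Pt (Fin (d + 1)) → ℂ) :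
    ∏ ω ∈ pts (q0 d Q 1), G ω = ∏ ω : Fin d → Fin Q, G (pe ω) := by
  refine (prod_bij (fun ω _ => pe ω) (fun ω _ => Br.mem_pts.2 fun i => ?_) (fun ω _ ω' _ e =>
    funext fun i => Fin.ext (Option.some.inj (congrFun e i.succ))) (fun t m => ?_)
      fun _ _ => rfl).symm
  · refine Fin.cases ⟨0, by simp [q0], rfl⟩ (fun i => ⟨ω i, by simp [q0], rfl⟩) i
  · choose a h1 h2 using Br.mem_pts.1 m
    refine ⟨fun i => ⟨a i.succ, by simpa [q0] using h1 i.succ⟩, mem_univ _, funext fun i => ?_⟩
    refine Fin.cases ?_ (fun i => (h2 _).symm) i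
    rw [h2, show a 0 = 0 by simpa [q0] using h1 0]; rfl

end Lq

open Lq in
theorem lap : LAP := fun d Q => by
  refine ⟨la, fun t z => Finsupp.ext fun a => ?_, pe, prod_pe, fun ω a => ?_⟩
  · rcases a with _ | a
    · rw [Finsupp.mapDomain_of_notMem_range _ _ (by simp), Sy.ind_apply, if_neg]
      rw [mem_lw, lp0, z]; nofun
    · rw [Finsupp.mapDomain_apply (Option.some_injective _), Sy.ind_apply, Sy.ind_apply]
      exact if_congr (mem_lw.trans (mem_lw (lt := Br.gl) (a := a)).symm) rfl rfl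
  · have x : ∀ i, Function.extend Fin.succ (pe ω) (fun _ => some 0) (Fin.succ i) = pe ω i :=
      fun i => (Fin.succ_injective _).extend_apply _ _ i
    rcases a with _ | _ | t
    · exact if_pos (mem_lw.2 (Function.extend_apply' _ _ _ fun ⟨i, e⟩ => Fin.succ_ne_zero i e))
    · exact if_pos (mem_lw.2 (x 0))
    · exact if_congr (mem_lw.trans ((x t.1.succ).congr_left.trans
        (Option.some_inj.trans Fin.val_inj))) rfl rfl

end Crest.Agent.N49.Wf

end
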