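import Crest.Agent.N49.Wf.Df2
import Crest.Agent.N49.Md.Morf

/-!
# Row 49 (helper17): the background of the image only sees the background (`LOC`)
-/

set_option autoImplicit false

open Matrix MvPolynomial Finset

noncomputable section

namespace Crest.Agent.N49.Wf

open Tw Md Sy

theorem loc : LOC := by
  intro τ L _ _ _ _ B W blk x f p p' h1 h2 w hw
  have e : ∀ A ⊆ w.1.2, ∏ a ∈ A, p (.inr (blk a)) = ∏ a ∈ A, p' (.inr (blk a)) := fun A s =>
    prod_congr rfl fun a m => h2 _ fun z => hw (z ▸ mem_image_of_mem blk (s m))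
  rw [Uf.ka_inl, Uf.ka_inl, e _ subset_rfl]
  refine congrArg _ (sum_congr rfl fun G _ => sum_congr rfl fun A m => ?_)
  rw [e _ (mem_powerset.1 m)]
  congr 3
  rw [sF, sF, sP, sP, sy_X, sy_X, sx, sx]
  split_ifs
  · exact h1 _ fun k => hw (image_subset_image sdiff_subset k)
  · rfl
  · rfl

end Crest.Agent.N49.Wf

end
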