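import Crest.Agent.N49.Wf.Df2
import Crest.Agent.N49.Sd.Syk
import Crest.Agent.N49.Sd.Masz

/-!
# Row 49 (helper82): the mass of the backgrounds of a dense set
-/

set_option autoImplicit false

open Matrix MvPolynomial Finset

noncomputable section

namespace Crest.Agent.N49.Wf

open Po Tw Br N49.Top Sd Md Rm

namespace Mb
variable {d Q h : ℕ}

/-- the inverse widths of the blocks of the grid -/
def lb (la : Lb d → ℝ) : Fin (d + 2) → ℝ := Fin.cons 1 la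

/-- the variances of the symbol tower -/
def vs (la : Lb d → ℝ) (_ : ℕ) (A : Finset (Fin (d + 2))) : ℝ := ((∏ i ∈ A, lb la i) ^ 2)⁻¹

variable {la : Lb d → ℝ}

theorem lb_bd (k : ∀ ℓ, 1 / 2 ^ h ≤ la ℓ ∧ la ℓ ≤ 2 ^ h) (i : Fin (d + 2)) :
    0 < lb la i ∧ lb la i ≤ 2 ^ h := by
  induction i using Fin.cases with
  | zero => exact ⟨one_pos, one_le_pow₀ one_le_two⟩
  | succ i => exact ⟨lt_of_lt_of_le (by positivity) (k i).1, (k i).2⟩

theorem vs_ge (k : ∀ ℓ, 1 / 2 ^ h ≤ la ℓ ∧ la ℓ ≤ 2 ^ h) (j : ℕ) (A : Finset (Fin (d + 2))) :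
    1 / 2 ^ (2 * h * (d + 2)) ≤ vs la j A := by
  have p : 0 < ∏ i ∈ A, lb la i := prod_pos fun i _ => (lb_bd k i).1
  have a : ∏ i ∈ A, lb la i ≤ (2 ^ h) ^ (d + 2) :=
    ((prod_le_prod (fun i _ => (lb_bd k i).1.le) fun i _ => (lb_bd k i).2).trans_eq
      (prod_const _)).trans (pow_le_pow_right₀ (one_le_pow₀ one_le_two)
        ((card_le_univ A).trans_eq (Fintype.card_fin _)))
  rw [one_div]
  refine inv_anti₀ (by positivity) ((pow_le_pow_left₀ p.le a 2).trans_eq ?_)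
  rw [← pow_mul, ← pow_mul]
  congr 1
  ring

theorem prod_lw {W : Finset (Finset (Lx d Q))} (l : Lt 0 (Dk d Q) Br.gl W) {t : Pt (Fin (d + 2))}
    (a : t ∈ Dk d Q) : ∏ b ∈ Br.lw Br.gl t, la (bk (Q := Q) b) = ∏ i ∈ bl t, lb la i :=
  prod_nbij (fun b => (Br.gl b).1) (fun b k => mem_bl.2 (by rw [mem_lw.1 k]; nofun))
    (fun b k c k' e => l.inj (Prod.ext e (Option.some.inj (by
      rw [← mem_lw.1 k, ← mem_lw.1 k']; exact congrArg t e))))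
    (fun i k => let ⟨b, f, e⟩ := l.ex a (mem_bl.1 k); ⟨b, f, e⟩) fun _ _ => rfl

theorem vw {W : Finset (Finset (Lx d Q))} (l : Lt 0 (Dk d Q) Br.gl W)
    (k : ∀ ℓ, 1 / 2 ^ h ≤ la ℓ ∧ la ℓ ≤ 2 ^ h) : Sd.Vw Br.gl (bk (Q := Q)) Q la (vs la) :=
  fun _ t a => by
    rw [prod_lw l a]
    exact inv_mul_cancel₀ (pow_ne_zero _ (prod_pos fun i _ => (lb_bd k i).1).ne')

end Mb
open Mb

theorem msb : MSB := by
  intro s d Q h M C n B xs H a η β l o hm hr e0 e1 ha hx h1 hn hβ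
  have vp : ∀ j A, 0 < vs B.la j A := fun j A => lt_of_lt_of_le (by positivity) (vs_ge o.la j A)
  obtain ⟨e, r, e2, e3, -, e5⟩ := syk _ _ s d Q h Br.gl (Wt d Q) bk 0 id B (vs B.la) l o vp
  rw [e5 (vw l.nm o.la) H] at hβ
  refine ⟨vs B.la, {z | ∃ y : Kc B.T (R1 s d Q 1 (vs B.la)) kw → ℤ,
    (fun c => y (e.symm c)) ∈ H ∧ z = fun c => y ⟨c.1, c.2.1⟩}, vs_ge o.la,
    masz s d Q B.M C n B.T B.st xs _ _ a η β _ _ hm o.old.stg hr e0 e1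
      (fun j A => ⟨ha.trans (vs_ge o.la j A), vp j A⟩) (fun _ _ _ _ => rfl) hx h1 hn
      (fun y k => ⟨y, k, rfl⟩) hβ, fun y ys ⟨y', k, k'⟩ b => ⟨_, k, fun w hw => ?_⟩⟩
  obtain ⟨q, rfl⟩ := e.surjective w
  have z : zw q.1.1.2 := ⟨q.2, by_contra fun n => hw (by
    obtain ⟨b, m, m'⟩ := mem_image.1 ((e3 q).2 ⟨q.2, n⟩)
    exact ((l.gx b).2 m' : b = none) ▸ m)⟩
  rw [(r ℤ y ys).1 b q, e.symm_apply_apply]
  exact congrFun k' ⟨q.1, z⟩

end Crest.Agent.N49.Wf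

end
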