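import Crest.Agent.N49.Wf.Defs

/-!
# Row 49 (helper70): the monomial section of a top-word ring
-/

set_option autoImplicit false
set_option linter.unusedSectionVars false

open Matrix MvPolynomial Finset

noncomputable section

namespace Crest.Agent.N49.Wf

open Po Tw Br Sy

namespace Se

variable {ι Λ : Type} [Fintype ι] [LinearOrder ι] [Fintype Λ] [DecidableEq Λ] {s : ℕ}
  {D : Finset (Pt ι)} {lt : Λ → ι × ℕ} (h : La D lt) (hs : 0 < s)

theorem le_iff (a : Λ) (ω : Pt ι) : Le (h.le hs a).tr ω ↔ a ∈ Br.lw lt ω := by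
  rw [mem_lw]
  refine ⟨fun k => (k (lt a).1 (by simp [La.le, Wd.tr])).symm.trans (by simp [La.le, Wd.tr]),
    fun k i e => ?_⟩
  by_cases c : i = (lt a).1
  · subst c; rw [k]; simp [La.le, Wd.tr]
  · simp [La.le, Wd.tr, c] at e

theorem bl_le (a : Λ) : bl (h.le hs a).tr = {(lt a).1} := by
  ext i; rw [mem_bl]; by_cases k : i = (lt a).1 <;> simp [k, La.le, Wd.tr]

theorem same {t : Pt ι} {a b : Λ} (ha : a ∈ Br.lw lt t) (hb : b ∈ Br.lw lt t)
    (h : La D lt) (e : (lt a).1 = (lt b).1) : a = b :=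
  h.inj (Prod.ext e (Option.some.inj (by rw [← mem_lw.1 ha, ← mem_lw.1 hb, e])))

theorem le_inj : Function.Injective (h.le hs) := fun a b e =>
  same ((le_iff h hs a _).1 (Le.refl _)) (e ▸ (le_iff h hs b _).1 (Le.refl _)) h
    (singleton_injective ((bl_le h hs a).symm.trans (e ▸ bl_le h hs b)))

include h in
theorem img {t : Pt ι} (a : t ∈ D) : (Br.lw lt t).image (fun b => (lt b).1) = bl t := by
  ext i
  rw [mem_image, mem_bl]
  refine ⟨fun ⟨b, k, e⟩ => by rw [← e, mem_lw.1 k]; nofun, fun k => ?_⟩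
  obtain ⟨n, e⟩ := Option.ne_none_iff_exists'.1 k
  obtain ⟨b, f⟩ := h.cov t a i n e
  exact ⟨b, by rw [mem_lw, f]; exact e, by rw [f]⟩

include h in
theorem card {t : Pt ι} (a : t ∈ D) : #(Br.lw lt t) = #(bl t) := by
  rw [← img h a, card_image_of_injOn fun b k c k' e => same k k' h e]

theorem rr (w : Wd s D) (μ : Λ →₀ ℕ) : Rr w (μ.mapDomain (h.le hs)) ↔ μ.degree = w.lv ∧
    μ.support ⊆ Br.lw lt w.tr ∧ Fill (μ.support.image fun b => (lt b).1) (bl w.tr) := by
  classical
  have e1 : Finsupp.weight Wd.lv (μ.mapDomain (h.le hs)) = μ.degree := by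
    rw [Finsupp.weight_apply, Finsupp.sum_mapDomain_index (by simp) (by simp [add_mul])]
    simp [Finsupp.degree_apply, Finsupp.sum, La.le, Wd.lv]
  rw [Rr, e1, Finsupp.mapDomain_support_of_injective (le_inj h hs), forall_mem_image,
    image_biUnion]
  simp only [le_iff, bl_le, biUnion_singleton]
  rfl

end Se

open Se

theorem sec : SEC := by
  intro ι Λ _ _ _ _ s κ D V lt h hs x p0 hx hp
  refine ⟨?_, fun w μ k => ((rr h hs w _).1 ((tw_r (V := V)).1 k)).2.1, fun w μ k => if_congr ?_ rfl rfl,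
    fun ω a => if_congr (le_iff h hs a ω) rfl rfl⟩
  · have d : ∀ w : Wd s D,
        (ind (Br.lw lt w.tr) + Finsupp.single p0 (w.lv - #(bl w.tr))).degree = w.lv := fun w => by
      rw [map_add, Swt.deg_ind, Finsupp.degree_single, card h w.mem]
      have := w.card
      omega
    have u : ∀ w : Wd s D,
        (ind (Br.lw lt w.tr) + Finsupp.single p0 (w.lv - #(bl w.tr))).support = Br.lw lt w.tr :=
      fun w => by
        rw [Finsupp.support_add_eq_union]
        refine union_eq_left.2 fun a k => ?_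
        obtain ⟨rfl, n⟩ := Finsupp.mem_support_single _ _ _ |>.1 k
        have := w.card
        exact hp _ w.mem ((card_eq_iff_eq_univ _).1 (by omega))
    refine ⟨fun w => ⟨_, mem_erase.2 ⟨fun e => ?_, mem_full.2 ((d w).trans_le w.lv_le)⟩⟩,
      fun w w' => if_congr ?_ rfl rfl⟩
    · have := d w
      rw [e, map_zero] at this
      exact absurd this (Nat.ne_of_lt w.lv_pos)
    · rw [rr, d, u, img h w'.mem]
      refine ⟨fun ⟨a, b, _⟩ => ?_, fun e => e ▸ ⟨rfl, subset_rfl, .refl _⟩⟩
      refine Wd.ext' a.symm ((Le.refl _).eq (fun i e => ?_) (by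
        refine (eq_of_subset_of_card_le ?_ (by rw [w.card, w'.card, a])).symm
        rw [← img h w.mem, ← img h w'.mem]
        exact image_subset_image b))
      obtain ⟨c, f, rfl⟩ := mem_image.1 ((img h w'.mem).ge (mem_bl.2 e))
      rw [mem_lw.1 f, mem_lw.1 (b f)]
  · rw [rr]
    have c : #(Br.lw lt w.tr) = w.lv := (card h w.mem).trans (w.card_eq k)
    refine ⟨fun ⟨a, b, f⟩ => ?_, fun e => by
      rw [e, Swt.deg_ind]
      exact ⟨c, subset_rfl, (img h w.mem).symm ▸ .refl _⟩⟩
    have e : ind (Br.lw lt w.tr) ≤ μ.1 := fun i => by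
      rw [ind_apply]
      split_ifs with g
      · have k1 := (img h w.mem).le (mem_image_of_mem _ g)
        obtain ⟨j, hj, e⟩ := mem_image.1 (by_contra fun n => mem_bl.1
          (f.2 _ k1 n x (lt_of_le_of_ne (hx _) fun e => mem_bl.1 k1 (e ▸ k))) k)
        exact Nat.pos_of_ne_zero (Finsupp.mem_support_iff.1 (same (b hj) g h e ▸ hj))
      · exact Nat.zero_le _
    obtain ⟨d, hd⟩ := exists_add_of_le e
    have := congrArg Finsupp.degree hd
    rw [a, map_add, Swt.deg_ind, c] at this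
    rw [hd, (Finsupp.degree_eq_zero_iff d).1 (by omega), add_zero]

end Crest.Agent.N49.Wf

end
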