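import Crest.Agent.N49.Wf.Df2
import Crest.Agent.N49.Wf.Sec

/-!
# Row 49 (helper63): `rd` reads the kept words of the image (`RDN`)
-/

set_option autoImplicit false

open Matrix MvPolynomial Finset

noncomputable section

namespace Crest.Agent.N49.Wf

open Po Tw Br N49.Top Sd Md Rm

theorem Rn.ind_lp {d Q : ℕ} {t : Pt (Fin (d + 2))} (h : t 0 = none) :
    Sy.ind (Br.lw (lp (Q := Q)) t) = (Sy.ind (Br.lw Br.gl t)).mapDomain some := by
  ext a
  rcases a with _ | a
  · rw [Finsupp.mapDomain_of_notMem_range _ _ (by simp), Sy.ind_apply,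
      if_neg fun k => Option.some_ne_none 0 ((mem_lw.1 k).symm.trans h)]
  · rw [Finsupp.mapDomain_apply (Option.some_injective _), Sy.ind_apply, Sy.ind_apply]
    exact if_congr (mem_lw.trans (mem_lw (lt := Br.gl)).symm) rfl rfl

/-- **`rd` reads the kept words** -/
theorem rdn : RDN := by
  intro s d Q hs h B κ v
  have k : ∀ (q : B.T.Cw (R1 s d Q 1 v)) (c : B.SC (Wt d Q)), kw q.1.2 →
      c.1 = (q.1.1, Br.lw Br.gl (Wd.tr q.1.2)) → ∀ p : B.T.Cw (FR (Lp d Q) s κ),
        fm s κ (R1 s d Q 1 v) (h.le hs) q.1.2 p.1.2 =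
          if p.1.2.1 = (Sy.ind c.1.2).mapDomain some then 1 else 0 := fun q c a e p => by
    rw [e, ← Rn.ind_lp a]
    exact (sec _ _ s κ _ (fun j w => v j (bl w)) lp h hs 0 none (fun _ => Fin.zero_le _) fun t m z => by
      obtain ⟨n, k⟩ := Option.ne_none_iff_exists'.1 (mem_bl.1 (z.ge (mem_univ 0)))
      have := mem_grid.1 m 0 n k
      rw [q1, if_pos rfl, Nat.lt_one_iff] at this
      subst this
      exact mem_lw.2 k).2.2.1 q.1.2 p.1.2 a
  refine ⟨fun y q c a e => ?_, fun y q c a e => ?_⟩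
  · rw [rd, Sw.ex, dn, TS.hm, ← filter_filter, sum_filter]
    refine sum_congr (by rw [e]; rfl) fun p _ => ?_
    rw [k q c a e p, ite_mul, one_mul, zero_mul]; rfl
  · rw [rd, Sw.ex, dr, TS.hmM_mulVec, ← filter_filter, sum_filter]
    refine sum_congr (by rw [e]; rfl) fun p _ => ?_
    rw [rl_apply, k q c a e p, Int.cast_ite, Int.cast_one, Int.cast_zero, ite_mul, one_mul,
      zero_mul]; rfl

end Crest.Agent.N49.Wf

end
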