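import Crest.Agent.N49.Wf.Df2
import Crest.Agent.N49.Rf.Rsc

/-!
# Row 49 (helper78): a twist of the rescaled tower is a twist of the tower
-/

set_option autoImplicit false

open Matrix MvPolynomial Finset

noncomputable section

namespace Crest.Agent.N49.Wf

open Po Tw

/-- **a twist of the rescaled tower is a twist of the tower** -/
theorem usc : USC := by
  intro τ T S st M xs
  change ∀ Ψ' : T.Twd S, _
  intro Ψ' hT o hs h
  have e : ∀ (F : T.C) (m : T.C →₀ ℕ), coeff m (T.tsc (fun c => (xs c)⁻¹) S Ψ' F) =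
      MvPolynomial.C (xs F)⁻¹ * coeff m (Ψ' F) := fun F m => coeff_C_mul _ _ _
  have k : T.tsc xs S (T.tsc (fun c => (xs c)⁻¹) S Ψ') = Ψ' := funext fun F : T.C => by
    change MvPolynomial.C (MvPolynomial.C (xs F)) *
      (MvPolynomial.C (MvPolynomial.C (xs F)⁻¹) * Ψ' F) = _
    rw [← mul_assoc, ← map_mul, ← map_mul, mul_inv_cancel₀ (hs F), map_one, map_one, one_mul]
  have hK : T.K.PosDef := hT.tri.pd
  have w : ∀ y : T.Cw S → ℤ, ((T.scl xs).tw S Ψ').wt y =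
      (T.tw S (T.tsc (fun c => (xs c)⁻¹) S Ψ')).wt y := fun y =>
    (congrArg (fun Ψ : T.Twd S => ((T.scl xs).tw S Ψ).wt y) k).symm.trans (TS.tsc_wt hK o hs y)
  refine ⟨T.tsc (fun c => (xs c)⁻¹) S Ψ', ⟨fun (F : T.C) (m : T.C →₀ ℕ) => ?_,
    fun (F : T.C) (m : T.C →₀ ℕ) hm => ?_, fun (F : T.C) (m : T.C →₀ ℕ) q => ?_⟩, fun G => ?_,
    fun y p => ?_⟩
  · exact (e F m).symm ▸ (h.gr F m).C_mul _
  · exact h.le F m (mem_support_iff.2
      (right_ne_zero_of_mul ((e F m).symm.trans_ne (mem_support_iff.1 hm))))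
  · have a : coeff m (Ψ' F) = MvPolynomial.C (xs F * coeff m (T.Φ F)) :=
      (h.top F m q).trans (congrArg _ (TS.scl_coeff F m))
    rw [e, a, ← map_mul, ← mul_assoc, inv_mul_cancel₀ (hs F), one_mul]
  · have z : ((T.scl xs).tw S Ψ').Z = (T.tw S (T.tsc (fun c => (xs c)⁻¹) S Ψ')).Z :=
      tsum_congr (β := T.Cw S → ℤ) w
    have c : ((T.scl xs).tw S Ψ').Sc G = (T.tw S (T.tsc (fun c => (xs c)⁻¹) S Ψ')).Sc G :=
      tsum_congr (β := T.Cw S → ℤ) fun y => congrArg (fun r : ℝ => (r : ℂ) * G y) (w y)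
    exact congrArg₂ (fun (a : ℂ) (b : ℝ) => a / (b : ℂ)) c z
  · have a := TS.tsc_u (T := T) (s := xs) (Ψ := T.tsc (fun c => (xs c)⁻¹) S Ψ') y p
    rw [k] at a
    exact a

end Crest.Agent.N49.Wf

end
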