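import Crest.Agent.N49.Wf.Df3
import Crest.Agent.N49.Wf.Wa
import Crest.Agent.N49.Wf.Lift
import Crest.Agent.N49.Sd.Nrm
import Crest.Agent.N49.Su.Kill
import Crest.Agent.N49.Md.Syu
import Crest.Agent.N49.Md.Szb
import Crest.Agent.N49.Mv.Move
import Crest.Agent.N49.Tw.Fin
import Crest.Agent.N49.Gb.Un2

/-!
# Row 49 (helper91): the witness without phase
-/

set_option autoImplicit false

open Matrix MvPolynomial Finset

noncomputable section

namespace Crest.Agent.N49.Wf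

open Po Tw Br N49.Top Sd Md Rm

namespace We

variable {τ : Type} [Fintype τ] [DecidableEq τ] {s : ℕ} {U : Finset (τ →₀ ℕ)} {K : Sw.Kn τ}
  {T : TS Unit}

/-- a visible word -/
def be (hU : U ⊆ full τ s) (w : Sh.MW U) : Sh.MW (full (Option τ) s) :=
  ⟨w.1.mapDomain some, mem_erase.2 ⟨fun z => w.ne (Finsupp.mapDomain_injective
    (Option.some_injective _) (z.trans Finsupp.mapDomain_zero.symm)),
    mem_full.2 ((degree_col _ _).trans_le (mem_full.1 (hU w.mem)))⟩⟩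

theorem be_inj (hU : U ⊆ full τ s) : Function.Injective (be hU) := fun _ _ e =>
  Subtype.ext (Finsupp.mapDomain_injective (Option.some_injective _) (congrArg Subtype.val e))

/-- a visible coordinate -/
def bc (κ : ℝ) (hU : U ⊆ full τ s) (c : T.Cw (Sw.MR (fun _ => ()) U K)) :
    T.Cw (FR (Option τ) s κ) :=
  ⟨(c.1.1, be hU c.1.2), Finsupp.mapDomain_comp.symm.trans c.2⟩

variable {κ : ℝ}

theorem bc_inj (hU : U ⊆ full τ s) : Function.Injective (bc (T := T) (K := K) κ hU) := fun _ _ e =>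
  Subtype.ext (Prod.ext (congrArg (·.1.1) e) (be_inj hU (congrArg (·.1.2) e)))

variable (s κ U K) in
/-- the hidden letter is killed -/
def ph : Matrix (Sw.MR (fun _ => ()) U K).W (FR (Option τ) s κ).W ℤ :=
  Sh.smm _ _ 0 _ _ (Su.Kl.kf some univ)

theorem ph_eq (hU : U ⊆ full τ s) (w : Sh.MW U) (μ : Sh.MW (full (Option τ) s)) :
    ph s U K κ w μ = if μ = be hU w then 1 else 0 :=
  (Su.Kl.smat_kf (Option.some_injective _) (subset_univ _) μ.1).trans
    (if_congr (Subtype.ext_iff (a1 := μ) (a2 := be hU w)).symm rfl rfl)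

theorem ph_hm (hU : U ⊆ full τ s) (dn : Dn U) :
    (FR (Option τ) s κ).Hm0 (Sw.MR (fun _ => ()) U K) (ph s U K κ) :=
  (Sh.hm_mono dn ⟨fun _ _ _ => rfl, fun ν k μ z => by
    rw [Su.Kl.smat_kf (Option.some_injective _) (subset_univ _)] at z
    rw [(of_not_not fun n => z (if_neg n) : μ = _)]
    exact mem_full.2 ((degree_col _ _).trans_le (mem_full.1 (hU k))), fun _ => by simp⟩).hm0

theorem hm_bc {R : Type} [CommRing R] (hU : U ⊆ full τ s)
    {φ : Matrix (Sw.MR (fun _ => ()) U K).W (FR (Option τ) s κ).W R}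
    (h : ∀ w μ, φ w μ = if μ = be hU w then 1 else 0) (u : T.Cw (FR (Option τ) s κ) → R)
    (c : T.Cw (Sw.MR (fun _ => ()) U K)) : (T.hmM _ _ φ *ᵥ u) c = u (bc κ hU c) := by
  have m : bc κ hU c ∈ univ.filter fun p : T.Cw (FR (Option τ) s κ) => p.1.1 = c.1.1 :=
    mem_filter.2 ⟨mem_univ _, rfl⟩
  refine (TS.hmM_mulVec φ u c).trans ((sum_eq_single_of_mem (bc κ hU c) m
    fun p a n => mul_eq_zero_of_left ((h _ _).trans (if_neg
      fun e => n (Subtype.ext (Prod.ext (mem_filter.1 a).2 e)))) _).trans ?_)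
  exact (congrArg (· * _) ((h _ _).trans (if_pos rfl))).trans (one_mul _)

theorem rl_eq (hU : U ⊆ full τ s) (w : Sh.MW U) (μ : Sh.MW (full (Option τ) s)) :
    rl (ph s U K κ) w μ = if μ = be hU w then 1 else 0 :=
  (congrArg Int.cast (ph_eq hU w μ)).trans (by split_ifs <;> simp)

theorem ex_bc {R : Type} [AddCommMonoid R] (hU : U ⊆ full τ s) (y : T.Cw (FR (Option τ) s κ) → R)
    (c : T.Cw (Sw.MR (fun _ => ()) U K)) :
    Sw.ex T _ id y (c.1.1, c.1.2.1.mapDomain some) = y (bc κ hU c) :=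
  sum_eq_single_of_mem (bc κ hU c) (mem_filter.2 ⟨mem_univ _, rfl, rfl⟩) fun _ hb n =>
    (n (Subtype.ext (Prod.ext (mem_filter.1 hb).2.1 (Subtype.ext (mem_filter.1 hb).2.2)))).elim

theorem nrm (hU : U ⊆ full τ s) (hT : T.K = 1) (k0 : 0 < κ) {V : Sh.MW U → ℝ}
    (hK : (Sw.MR (fun _ => ()) U K).K = diagonal V) (hV : ∀ w, 2 * κ ≤ V w)
    (u : T.Cw (FR (Option τ) s κ) → ℝ) :
    2 * qf (T.sh (Sw.MR (fun _ => ()) U K)).K⁻¹ (T.hmM _ _ (rl (ph s U K κ)) *ᵥ u) ≤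
      qf (T.sh (FR (Option τ) s κ)).K⁻¹ u := by
  have hT' : T.K = diagonal fun _ => 1 := hT.trans diagonal_one.symm
  refine (congrArg (2 * ·) (Nr.qf_sh hK hT' (fun w => (lt_of_lt_of_le (by positivity) (hV w)).ne')
    (fun _ => one_ne_zero) _)).trans_le (le_of_le_of_eq ?_
      (Nr.qf_sh (fr_K s κ) hT' (fun _ => k0.ne') (fun _ => one_ne_zero) u).symm)
  rw [mul_sum]
  refine le_trans (sum_le_sum fun c _ => ?_) (le_of_eq_of_le (sum_image
    (f := fun p => u p ^ 2 / (1 * κ)) (bc_inj (T := T) (K := K) (κ := κ) hU).injOn).symm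
    (sum_le_sum_of_subset_of_nonneg (subset_univ _) fun _ _ _ => by positivity))
  refine (congrArg (fun t => 2 * (t ^ 2 / (1 * V c.1.2))) (hm_bc hU (rl_eq hU) u c)).trans_le ?_
  rw [one_mul, one_mul, ← div_le_div_iff_of_pos_right two_pos,
    mul_div_cancel_left₀ _ two_ne_zero, div_div, mul_comm κ]
  exact div_le_div_of_nonneg_left (sq_nonneg _) (by positivity) (hV _)

variable {L : Type} [Fintype L] [DecidableEq L] {B : Bs L} {W : Finset (Finset τ)} {blk : τ → L}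
  {h N C : ℕ} {η : ℝ}

theorem core (x : τ) (ε : L → ℝ) (m : MAST B.M C) (o : B.Ok s h) (wf : Wf s W blk) (k0 : 0 < κ)
    (η0 : 0 < η) (η1 : η ≤ 1 / 2) (hN : (Fintype.card τ + 2) ^ s ≤ N)
    (hκ : κ ≤ 1 / 2 ^ (2 * h * s + 1)) (r : B.Rg C N κ η) (H : Set (B.SC W → ℤ)) :
    ∃ (Ψ : B.T.Twd (FR (Option τ) s κ)) (g : (B.T.Cw (FR (Option τ) s κ) → ℤ) → ℂ)
      (u : B.SC W → ℝ), B.T.Adm _ B.st Ψ ∧ (∀ y, ‖g y‖ ≤ 1) ∧
      (∀ y y', (∀ p, p.1.2.1 (some x) = 0 → y p = y' p) → g y = g y') ∧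
      (∀ y, g y ≠ 0 → ∃ y0 ∈ H, ∀ w, x ∉ w.1.2 → rd B W s κ y w = y0 w) ∧
      (∀ y w, (∏ b ∈ w.1.2, B.la (blk b)) * rd B W s κ ((B.T.tw _ Ψ).u y) w =
        (B.SY W blk).Φ (Sum.elim (rd B W s κ y) ε) w - u w) ∧
      (B.SY W blk).pr H / 4 ≤ ‖(B.T.tw _ Ψ).Ec g‖ := by
  have l0 : ∀ ℓ, 0 < B.la ℓ ∧ B.la ℓ ≤ 2 ^ h := fun ℓ => ⟨Md.Su.la_pos o ℓ, (o.la ℓ).2⟩
  have p2 : κ * 2 ^ (2 * h * s + 1) ≤ 1 := (le_div_iff₀ (by positivity)).1 hκ
  obtain ⟨q1, -, q2, -⟩ := Md.szb τ L blk B.la s h N κ l0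
    ((Nat.pow_le_pow_left (by omega) _).trans hN) (hκ.trans (Mv.hf (by omega)))
  obtain ⟨dn, hU⟩ := q2 W wf
  have z' := q1 _ dn hU
  have z := fr_sz (Λ := Option τ) (s := s) k0 (n := N) (by rw [Fintype.card_option]; exact hN)
  have g := o.old.stg
  have a' := g.adm z'.toOk
  obtain ⟨j, j1, -, -, j2, -, j3⟩ := syu τ L B W blk s h _ o wf dn subset_rfl
  have e1 : η ≤ 1 := by linarith
  have rd_eq : ∀ (R : Type) [AddCommMonoid R] (y : B.T.Cw (FR (Option τ) s κ) → R) (w : B.SC W),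
      rd B W s κ y w = y (bc κ hU (j w)) := fun R _ y w => by
    rw [rd, ← (j1 w).1, ← (j1 w).2]
    exact ex_bc hU y (j w)
  obtain ⟨Ψ, ο, ad, hu, hn⟩ := lift insaA (Option τ) τ B.T (FR (Option τ) s κ)
    (mr blk B.la (W.image Sy.ind)) B.st B.M (ph s _ _ κ) (be hU) (B.T.tw0 _)
    (Set.indicator {y | (fun w : B.SC W => wv blk B.la B.T y w.1.1 (Sy.ind w.1.2)) ∈ H} 1) 1
    z.toOk z'.toOk (ph_hm hU dn) (fun w w' => (ph_eq hU w _).trans
      (if_congr ((be_inj hU).eq_iff.trans eq_comm) rfl rfl)) g a'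
    (nrm hU o.old.K k0 (Md.Su.mr_K blk B.la) fun w => by
      have k1 : Md.kw blk B.la w.1 ≤ 2 ^ (h * s) := by
        refine (prod_le_prod (fun a _ => (l0 _).1.le) fun a _ => (l0 _).2).trans ?_
        rw [prod_const, ← pow_mul]
        obtain ⟨A, k, e⟩ := mem_image.1 (Sh.MW.mem w)
        exact pow_le_pow_right₀ one_le_two (Nat.mul_le_mul_left _ (e ▸ wf.le A k))
      have k2 := Md.Su.kw_pos blk B.la (fun ℓ => (l0 ℓ).1) w.1
      rw [le_inv_comm₀ (by positivity) (by positivity), ← one_div, le_div_iff₀ (by positivity)]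
      refine le_trans ?_ p2
      rw [pow_succ 2 (2 * h * s), mul_assoc 2 h s, mul_comm 2 (h * s), pow_mul]
      nlinarith [mul_le_mul_of_nonneg_left (pow_le_pow_left₀ k2.le k1 2) k0.le])
    fun y => (abs_of_nonneg (ind_nonneg _ y)).trans_le (ind_le _ y)
  have t' := TS.tw_tri g.cl a' z'.toOk
  have t := TS.tw_tri g.cl ad z.toOk
  have M' := (TS.lw_mas g a' z'.toOk).1 (m _ _ _ _ _ _ _ _ _ (r.hy g η0 e1 a' z' le_rfl le_rfl))
  have M := (TS.lw_mas g ad z.toOk).1 (m _ _ _ _ _ _ _ _ _ (r.hy g η0 e1 ad z le_rfl le_rfl))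
  have u0 := Gb.le_N t' M' (ind_nonneg
    {y | (fun w : B.SC W => wv blk B.la B.T y w.1.1 (Sy.ind w.1.2)) ∈ H})
  have p0 := TS.E_nonneg (T := B.T.tw (mr blk B.la (W.image Sy.ind)) (B.T.tw0 _)) (ind_nonneg
    {y | (fun w : B.SC W => wv blk B.la B.T y w.1.1 (Sy.ind w.1.2)) ∈ H})
  have u1 := N_half t M e1 (mul_nonneg (sub_nonneg.2 e1) p0)
    (u0.trans (((TS.lw_N g a' z'.toOk _).symm.trans_le hn).trans_eq (TS.lw_N g ad z.toOk _)))
  let A : Set (B.T.Cw (FR (Option τ) s κ) → ℤ) :=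
    {y | ∃ y0 ∈ H, ∀ w, x ∉ w.1.2 → rd B W s κ y w = y0 w}
  refine ⟨Ψ, fun y => (A.indicator (1 : (B.T.Cw (FR (Option τ) s κ) → ℤ) → ℝ) y : ℝ),
    fun w => Md.kw blk B.la (Sy.ind w.1.2) * ο (j w), ad, fun y => ?_, fun y y' e => ?_, fun y k => ?_, fun y w => ?_, ?_⟩
  · rw [Complex.norm_real, Real.norm_of_nonneg (ind_nonneg _ _)]
    exact ind_le _ _
  · have k : ∀ w : B.SC W, x ∉ w.1.2 → rd B W s κ y w = rd B W s κ y' w := fun w n => by
      rw [rd_eq, rd_eq]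
      refine e _ ((Finsupp.mapDomain_apply (Option.some_injective _) _ _).trans ?_)
      rw [(j1 w).2, Sy.ind_apply, if_neg n]
    have : y ∈ A ↔ y' ∈ A := exists_congr fun y0 => and_congr_right fun _ =>
      forall₂_congr fun w n => by rw [k w n]
    by_cases c : y ∈ A
    · simp only [Set.indicator_of_mem c, Set.indicator_of_mem (this.1 c), Pi.one_apply]
    · simp only [Set.indicator_of_notMem c, Set.indicator_of_notMem fun n => c (this.2 n)]
  · exact of_not_not fun n : y ∉ A => k ((congrArg Complex.ofReal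
      (Set.indicator_of_notMem n _)).trans Complex.ofReal_zero)
  · have k := hu y (j w)
    have k1 := j3 (B.T.hmM _ _ (rl (ph s _ _ κ)) *ᵥ y) ε w
    have k2 : (fun w' => (B.T.hmM (FR (Option τ) s κ) (mr blk B.la (W.image Sy.ind))
        (rl (ph s _ _ κ)) *ᵥ y) (j w')) = rd B W s κ y :=
      funext fun w' => (hm_bc hU (rl_eq hU) y (j w')).trans (rd_eq ℝ y w').symm
    refine (congrArg (_ * ·) ((rd_eq ℝ _ w).trans ((hm_bc hU (rl_eq hU) _ (j w)).symm.trans k))).trans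
      ((mul_sub _ _ _).trans (congrArg (· - _) (k1.symm.trans ?_)))
    exact congrArg (fun z => (B.SY W blk).Φ (Sum.elim z ε) w) k2
  · rw [syp τ L B W blk s h H o wf]
    refine le_trans ?_ ((le_abs_self _).trans_eq ((Complex.norm_real _).symm.trans
      (congrArg _ (TS.Ec_ofReal (B.T.tw _ Ψ) (A.indicator 1)).symm)))
    refine le_trans ?_ (u1.trans (t.E_mono ((Bb.ind _).comp _) (.ind A) fun y => ?_))
    · exact (fun E : ℝ => fun e : 0 ≤ E => (by nlinarith [mul_le_mul_of_nonneg_right η1 e] :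
        E / 4 ≤ (1 - η) * E / 2)) _ p0
    · by_cases k : (fun w : B.SC W => wv blk B.la B.T (B.T.hm (FR (Option τ) s κ)
          (mr blk B.la (W.image Sy.ind)) (ph s _ _ κ) y) w.1.1 (Sy.ind w.1.2)) ∈ H
      · refine (Tw.ind_le _ _).trans_eq (Set.indicator_of_mem (show y ∈ A from
          ⟨_, k, fun w _ => ?_⟩) (1 : (B.T.Cw (FR (Option τ) s κ) → ℤ) → ℝ)).symm
        exact (rd_eq ℤ y w).trans (((j2 ℤ _ w).trans ((congrFun (TS.hm_eq y) _).trans
          (hm_bc hU (ph_eq hU) y (j w)))).symm)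
      · exact (Set.indicator_of_notMem (by exact k) _).trans_le (ind_nonneg _ _)

end We

theorem we (s d : ℕ) : WE s d := fun M => by
  obtain ⟨C, hC⟩ := mastC M
  refine ⟨2 * s + 2, fun e he => ⟨(e + 1) * C + e, fun c f H n Y p => ?_⟩⟩
  have sb := p.fo.sb p.c p.le
  have h2 := sb.two
  have a1 : 2 * n * s + 1 ≤ n ^ e := by
    have : 2 * s + 1 ≤ n ^ (2 * s + 1) :=
      Nat.lt_two_pow_self.le.trans (Nat.pow_le_pow_left h2 _)
    refine le_trans ?_ (Nat.pow_le_pow_right (by omega) he)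
    rw [pow_succ n (2 * s + 1)]
    nlinarith
  have a2 : (Fintype.card (Lx d c.Q) + 2) ^ s ≤ n ^ e := by
    refine le_trans ?_ (Nat.pow_le_pow_right (by omega) (show 2 * s ≤ e by omega))
    rw [pow_mul]
    exact Nat.pow_le_pow_left (by
      have : Fintype.card (Lx d c.Q) ≤ n := sb.cτ
      nlinarith) _
  obtain ⟨Ψ, g, u, b1, b2, b3, b4, b5, b6⟩ := We.core (B := f.toBs) (blk := bk) none
    (fun ℓ => if ℓ = 0 then 0 else 1) (p.M ▸ (hC C le_rfl).1) sb.ok sb.wf (by positivity)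
    (by positivity) (by simpa using Mv.hf (show 1 ≤ n ^ e by omega)) a2 (Mv.hf a1)
    (Mv.rg_up sb.ok.old p.rg h2 le_rfl) H
  refine ⟨Ψ, g, u, b1, b2, b3, b4, b5, le_trans ?_ b6⟩
  have := p.sz.2.2
  rw [_root_.one_div_pow] at this
  refine (Mv.hf (show n + 2 ≤ 3 * n + 4 by omega)).trans ?_
  rw [pow_add, ← div_div]
  norm_num1
  exact div_le_div_of_nonneg_right this (by norm_num)

end Crest.Agent.N49.Wf

end
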