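import Crest.Agent.N49.Wf.Defs

/-!
# Row 49 (helper78): witnesses from the fibres
-/

set_option autoImplicit false
set_option linter.unusedSectionVars false

open Matrix Finset

noncomputable section

namespace Crest.Agent.N49.Wf

open Po Tw Br N49.Top Sd

namespace Z0

/-- the conjugate phase -/
def ph (u : ℂ) : ℂ := (starRingEnd ℂ) u / ‖u‖

theorem ph_le (u : ℂ) : ‖ph u‖ ≤ 1 := by
  rw [ph, norm_div, Complex.norm_conj, Complex.norm_real, norm_norm]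
  exact div_self_le_one _

theorem ph_mul (u : ℂ) : (ph u * u).re = ‖u‖ := by
  rw [ph, div_mul_eq_mul_div, Complex.conj_mul', ← Complex.ofReal_pow, ← Complex.ofReal_div,
    Complex.ofReal_re]
  rcases eq_or_ne ‖u‖ 0 with e | e
  · simp [e]
  · field_simp

theorem core {X H : Type} [Add X] {μ β : X → ℝ} {w G : X → H → ℝ} {e : X → ℂ} {b b1 δ0 δ1 : ℝ}
    (hμ : ∀ p, 0 ≤ μ p) (hβ : ∀ p, 0 ≤ β p) (hw : ∀ a η, 0 ≤ w a η)
    (hG : ∀ a η, 0 ≤ G a η ∧ G a η ≤ b) (he : ∀ x, ‖e x‖ = 1) (sβ : Summable β) (sμ : Summable μ)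
    (hb : ∀ a, 0 ≤ ∑' η, w a η * G a η ∧ ∑' η, w a η * G a η ≤ b1)
    (s : Summable fun r : (X × X) × H => μ r.1.1 * β r.1.2 * w (r.1.1 + r.1.2) r.2)
    {J : X → ℂ} (hJ : ∀ p, J p = ∑' x, (β x : ℂ) * ((∑' η, w (p + x) η * G (p + x) η : ℝ) * e x))
    {S : Set X} (d1 : 0 ≤ δ1) (h0 : δ0 ≤ ∑' p, S.indicator μ p) (h1 : ∀ p ∈ S, δ1 ≤ ‖J p‖) :
    δ0 * δ1 ≤ ∑' r : (X × X) × H, μ r.1.1 * β r.1.2 * w (r.1.1 + r.1.2) r.2 *
      ((ph (J r.1.1) * e r.1.2).re * G (r.1.1 + r.1.2) r.2) := by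
  have s3 : Summable fun r : (X × X) × H => μ r.1.1 * β r.1.2 * w (r.1.1 + r.1.2) r.2 *
      ((ph (J r.1.1) * e r.1.2).re * G (r.1.1 + r.1.2) r.2) := by
    refine .of_norm_bounded (s.mul_right b) fun r => ?_
    have p := mul_nonneg (mul_nonneg (hμ r.1.1) (hβ r.1.2)) (hw (r.1.1 + r.1.2) r.2)
    rw [norm_mul, Real.norm_of_nonneg p, norm_mul, Real.norm_of_nonneg (hG _ _).1]
    refine mul_le_mul_of_nonneg_left ((mul_le_of_le_one_left (hG _ _).1 ?_).trans (hG _ _).2) p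
    refine (Complex.abs_re_le_norm _).trans ?_
    rw [norm_mul, he, mul_one]
    exact ph_le _
  have e1 : ∀ q : X × X, ∑' η, μ q.1 * β q.2 * w (q.1 + q.2) η *
      ((ph (J q.1) * e q.2).re * G (q.1 + q.2) η) = μ q.1 * (ph (J q.1) * ((β q.2 : ℂ) *
        ((∑' η, w (q.1 + q.2) η * G (q.1 + q.2) η : ℝ) * e q.2))).re := fun q => by
    rw [mul_left_comm (ph _), mul_left_comm (ph _), Complex.re_ofReal_mul, Complex.re_ofReal_mul,
      mul_comm _ (Complex.re _), ← tsum_mul_left, ← tsum_mul_left, ← tsum_mul_left]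
    exact tsum_congr fun η => by ring
  have e2 : ∀ p, ∑' x, μ p * (ph (J p) * ((β x : ℂ) *
      ((∑' η, w (p + x) η * G (p + x) η : ℝ) * e x))).re = μ p * ‖J p‖ := fun p => by
    have : Summable fun x => (β x : ℂ) * ((∑' η, w (p + x) η * G (p + x) η : ℝ) * e x) := by
      refine .of_norm_bounded (sβ.mul_right b1) fun x => ?_
      rw [norm_mul, norm_mul, he, mul_one, Complex.norm_real, Complex.norm_real,
        Real.norm_of_nonneg (hβ _), Real.norm_of_nonneg (hb _).1]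
      exact mul_le_mul_of_nonneg_left (hb _).2 (hβ _)
    rw [tsum_mul_left, ← Complex.re_tsum (this.mul_left _), tsum_mul_left, ← hJ, ph_mul]
  have s4 := s3.prod
  simp only [e1] at s4
  have s5 := s4.prod
  simp only [e2] at s5
  rw [s3.tsum_prod]
  simp only [e1]
  rw [s4.tsum_prod]
  simp only [e2]
  refine (mul_le_mul_of_nonneg_right h0 d1).trans ?_
  rw [← tsum_mul_right]
  refine ((sμ.indicator S).mul_right δ1).tsum_le_tsum (fun p => ?_) s5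
  by_cases k : p ∈ S
  · rw [Set.indicator_of_mem k]; exact mul_le_mul_of_nonneg_left (h1 p k) (hμ p)
  · rw [Set.indicator_of_notMem k, zero_mul]; exact mul_nonneg (hμ p) (norm_nonneg _)

theorem cv_cv {ι : Type} [Fintype ι] [LinearOrder ι] {s : ℕ} {D D' : Finset (Pt ι)} (T : TS Unit)
    (e : D = D') (V V' : ℕ → Pt ι → ℝ) (a : T.Cw (Br.tw s D V)) :
    Ce.cv T e.symm V' V (Ce.cv T e V V' a) = a := by
  subst e; rfl

variable {d Q : ℕ} {B : Bd (Fin (d + 2))} (g : Gq Q B) (h : B.Ok)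
  (v : ℕ → Finset (Fin (d + 2)) → ℝ)

/-- the location part -/
def rp (y : B.T.Cw (R1 B.s d Q 1 v) → ℤ) : B.I → ℤ := fun p => y (g.co h v 1 ⟨.inr (.inl 0), p⟩)

variable (B) in
/-- one edge -/
def eF : (((B.I → ℤ) × (B.I → ℤ)) × B.Hc) ≃ Hz.Fc B (univ : Finset (Fin 1 × Fin 1)) where
  toFun r := ((fun _ => r.1.1, fun _ => r.1.2), fun _ => r.2)
  invFun r := ((r.1.1 0, r.1.2 0), r.2 ⟨(0, 0), mem_univ _⟩)
  left_inv _ := rfl
  right_inv r := Prod.ext (Prod.ext (funext fun _ => congrArg r.1.1 (Subsingleton.elim _ _))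
    (funext fun _ => congrArg r.1.2 (Subsingleton.elim _ _)))
    (funext fun _ => congrArg r.2 (Subsingleton.elim _ _))

theorem pf (c c' : ℝ) (f : (B.T.C → ℤ) → ℝ) (q : B.Cf (univ : Finset (Fin 1 × Fin 1)))
    (y : B.T.Cw (R1 B.s d Q 1 v) → ℤ)
    (hq : h.cE c c' q = fun a => y (Ce.cv B.T (g.D h 1) _ (fun j w => v j (bl w)) a)) :
    PF B.T B.s (q1 d Q 1) v (fun _ => f) y = ∏ e, B.eg (zp 0 1 fun _ => Q) f q.1
      (q.2.1.1 e.1.1 + q.2.1.2 e.1.2) (q.2.2 e) := by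
  refine (Ce.prod_pts h (k := 1) (l := 1) (by simp [g.x, q1]) (by simp [g.y, q1]) _).trans
    (prod_congr rfl fun e _ => ?_)
  rw [g.x, g.y, zp, zq1]
  refine prod_congr rfl fun ω _ => congrArg f ?_
  rw [← h.pts _ _ _ c c' q e ω, hq]
  exact Ce.pw_cv B.T (g.D h 1) _ _ _ _

/-- the configuration of a point of the fibre -/
def yr (c c' : ℝ) (q : B.Cf (univ : Finset (Fin 1 × Fin 1))) : B.T.Cw (R1 B.s d Q 1 v) → ℤ :=
  fun a => h.cE c c' q (Ce.cv B.T (g.D h 1).symm (fun j w => v j (bl w)) (B.V c c') a)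

theorem yr_co (c c' : ℝ) (q : B.Cf (univ : Finset (Fin 1 × Fin 1))) (j) :
    yr g h v c c' q (g.co h v 1 j) = q.at j :=
  (congrArg _ (cv_cv B.T (g.D h 1) (B.V c c') _ (h.eC c c' j))).trans (h.cE_eC c c' _ j)

theorem yr_z (c c' : ℝ) (q : B.Cf (univ : Finset (Fin 1 × Fin 1))) :
    g.rz h v (yr g h v c c' q) = q.1 := funext fun _ => yr_co g h v c c' q _
theorem yr_x (c c' : ℝ) (q : B.Cf (univ : Finset (Fin 1 × Fin 1))) :
    g.rx h v (yr g h v c c' q) = q.2.1.2 0 := funext fun _ => yr_co g h v c c' q _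
theorem yr_p (c c' : ℝ) (q : B.Cf (univ : Finset (Fin 1 × Fin 1))) :
    rp g h v (yr g h v c c' q) = q.2.1.1 0 := funext fun _ => yr_co g h v c c' q _

theorem yr_f (c c' : ℝ) (f : (B.T.C → ℤ) → ℝ) (z : B.Zc) (r) :
    PF B.T B.s (q1 d Q 1) v (fun _ => f) (yr g h v c c' (z, eF B r)) =
      B.eg (zp 0 1 fun _ => Q) f z (r.1.1 + r.1.2) r.2 := by
  rw [pf g h v c c' f (z, eF B r) _
    (funext fun a => congrArg _ (cv_cv B.T (g.D h 1) (B.V c c') _ a).symm)]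
  simp [eF]

theorem wf (c c' : ℝ) (z : B.Zc) (r) : Hz.wF h c c' z (eF B r) = gd (c • h.M z) (h.ce z) r.1.1 *
    gd (c' • h.M z) 0 r.1.2 * h.wH z (r.1.1 + r.1.2) r.2 := by
  simp [Hz.wF, eF]

theorem fib {st : B.T.C → ℕ} {M : ℕ} (hs : B.T.Stg st M) {c c' : ℝ} (hv : ∀ j A, 0 < v j A)
    (hc : 0 < c) (hc' : 0 < c')
    (hV : ∀ j t, ¬ (t 0 = none ∧ t 1 = none) → v j (bl t) = B.V c c' j t)
    (y : B.T.Cw (R1 B.s d Q 1 v) → ℤ) (F : (B.T.Cw (R1 B.s d Q 1 v) → ℤ) → ℝ) :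
    (Summable fun r => Hz.wF h c c' (g.rz h v y) (eF B r)) ∧
      @Sd.hid _ B.T (R1 B.s d Q 1 v) (zw (s := B.s) (D := grid (q1 d Q 1)))
        instDecidablePredWdFinHAddNatOfNatZw st (B.T.tw0 _) y F = ∑' r, Hz.wF h c c' (g.rz h v y) (eF B r) *
        F (yr g h v c c' (g.rz h v y, eF B r)) := by
  obtain ⟨q, hq⟩ := (h.cE (Γ := (univ : Finset (Fin 1 × Fin 1))) c c').surjective
    fun a => y (Ce.cv B.T (g.D h 1) _ (fun j w => v j (bl w)) a)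
  have z1 : g.rz h v y = q.1 := funext fun p =>
    ((h.cE_eC c c' q ⟨.inl (), p⟩).symm.trans (congrFun hq _)).symm
  obtain ⟨t1, t2⟩ := Hz.hid_zv h hs hc hc' (fun j t => hv j (bl t))
    (fun j t m => hV j t (by rwa [g.x, g.y] at m)) (g.D h 1) (p := zw)
    (fun w => by rw [g.x, g.y]; rfl) q y hq F
  rw [z1]
  exact ⟨(eF B).summable_iff.2 t1, t2.trans ((eF B).tsum_eq _).symm⟩

end Z0

open Z0 in
theorem w0 : W0 := by
  intro d Q B g h st M v c c' b δ0 δ1 f W η hs hv hc hc' hV hf d1 H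
  have hG : ∀ z a η, 0 ≤ B.eg (zp 0 1 fun _ => Q) f z a η ∧ B.eg (zp 0 1 fun _ => Q) f z a η ≤
      ∏ _ω ∈ zp (0 : Fin (d + 2)) 1 fun _ => Q, b := fun z a η =>
    ⟨prod_nonneg fun _ _ => (hf _).1, prod_le_prod (fun _ _ => (hf _).1) fun _ _ => (hf _).2⟩
  obtain ⟨J, hJ⟩ : ∃ J : B.Zc → (B.I → ℤ) → ℂ, ∀ z p, J z p = ∑' w, (gd (c' • h.M z) 0 w : ℂ) *
    (h.av (B.eg (zp 0 1 fun _ => Q) f) z (p + w) * ee (η z ⬝ᵥ zc w)) := ⟨_, fun _ _ => rfl⟩
  refine ⟨fun y => ph (J (g.rz h v y) (rp g h v y)), fun _ => ph_le _, fun y y' e => ?_,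
    fun y hy => ?_⟩
  · exact congrArg ph (congrArg₂ J (funext fun p => e _ (g.pu0 h ..).2)
      (funext fun p => e _ (g.pu0 h ..).2))
  obtain ⟨S, s0, s1⟩ := H _ hy
  obtain ⟨t1, t2⟩ := fib g h v hs hv hc hc' hV y
    fun y => (ph (J (g.rz h v y) (rp g h v y)) * ee (η (g.rz h v y) ⬝ᵥ zc (g.rx h v y))).re *
      PF B.T B.s (q1 d Q 1) v (fun _ => f) y
  refine le_of_le_of_eq ?_ t2.symm
  simp only [wf, yr_z, yr_x, yr_p, yr_f] at t1 ⊢
  simp only [← hJ] at s1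
  generalize g.rz h v y = z at *
  obtain ⟨b', hb⟩ := h.hid.2.2.2
  have hb' : ∀ a, 0 ≤ ∑' ζ, h.wH z a ζ * B.eg (zp 0 1 fun _ => Q) f z a ζ ∧
      ∑' ζ, h.wH z a ζ * B.eg (zp 0 1 fun _ => Q) f z a ζ ≤
        (∏ _ω ∈ zp (0 : Fin (d + 2)) 1 fun _ => Q, b) * b' :=
    fun a => ⟨(h.av_le h.hid hG z a).1, (h.av_le h.hid hG z a).2.trans
      (mul_le_mul_of_nonneg_left (by simpa only [Bd.Ok.av, mul_one] using hb z a)
        ((hG z 0 0).1.trans (hG z 0 0).2))⟩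
  have sβ : Summable (gd (c' • h.M z) 0) := (summable_gs ((h.lin z).1.smul hc') _).div_const _
  have sμ : Summable (gd (c • h.M z) (h.ce z)) :=
    (summable_gs ((h.lin z).1.smul hc) _).div_const _
  exact (core (μ := gd (c • h.M z) (h.ce z)) (β := gd (c' • h.M z) 0) (w := h.wH z)
    (G := B.eg (zp 0 1 fun _ => Q) f z) (e := fun w => ee (η z ⬝ᵥ zc w)) (J := J z) (S := S)
    (fun _ => Fa.gd_nn _ _ _) (fun _ => Fa.gd_nn _ _ _) (h.hid.1 z) (hG z) (fun _ => norm_ee _)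
    sβ sμ hb' t1 (hJ z) d1 s0 s1).trans_eq (tsum_congr fun r => rfl)

end Crest.Agent.N49.Wf

end
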