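import Crest.Agent.N49.Wf.Defs
import Crest.Agent.N49.Br.Kmt

/-!
# Row 49 (helper18): the third clause of `KO` with continuous normalisers
-/

set_option autoImplicit false

open Matrix Finset

noncomputable section

namespace Crest.Agent.N49.Wf

open Po Tw Br

theorem wk2 : WK := by
  intro I _ _ M θ η g lam δ0 δ1 S hM l1 sm h0 h1
  have cp := Kg.cw_pos (I := I)
  have c0 : 0 < (1 + (cw I)⁻¹)⁻¹ := by positivity
  have c1 : (1 + (cw I)⁻¹)⁻¹ ≤ 1 := inv_le_one_of_one_le₀ (by have := inv_pos.2 cp; linarith)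
  have a := hM.smul c0
  have hl := hM.smul (show 0 < lam by linarith)
  have t := Kg.th_lo a (Kg.sm_anti a (hl.smul two_pos) (fun x => by
    rw [qf_smul, qf_smul, qf_smul]
    have := qf_nonneg hM x
    nlinarith) sm) θ
  constructor
  · rw [mp_self hM] at h0
    refine (mul_le_mul_of_nonneg_left h0 (by norm_num)).trans ?_
    rw [← tsum_mul_left]
    have sg : Summable (gd ((1 + (cw I)⁻¹)⁻¹ • M) θ) := (summable_gs a θ).div_const _
    have sz : Summable (gz ((1 + (cw I)⁻¹)⁻¹ • M) θ) := (summable_gs a θ).div_const _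
    refine ((sz.indicator S).mul_left _).tsum_le_tsum (fun p => ?_) (sg.indicator S)
    by_cases hp : p ∈ S
    · rw [Set.indicator_of_mem hp, Set.indicator_of_mem hp, gz, gd, ← mul_div_assoc,
        div_le_div_iff₀ (th_pos a θ) (dt_pos a)]
      nlinarith [gs_pos ((1 + (cw I)⁻¹)⁻¹ • M) (zc p - θ)]
    · simp [hp]
  · intro p hp
    refine (h1 p hp).trans ?_
    have e : ∑' w, (gd (lam • M) 0 w : ℂ) * (g (p + w) * ee (η ⬝ᵥ zc w)) =
        ((th (lam • M) 0 / dt (lam • M) : ℝ) : ℂ) * (starRingEnd ℂ)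
          (∑' w, (gz (lam • M) 0 w : ℂ) * (g (p + w) * ee (-(η ⬝ᵥ zc w)))) := by
      rw [Complex.conj_tsum, ← tsum_mul_left]
      refine tsum_congr fun w => ?_
      have e1 : (starRingEnd ℂ) (ee (-(η ⬝ᵥ zc w))) = ee (η ⬝ᵥ zc w) := by
        simp [ee, ← Complex.exp_conj, map_ofNat]
      have e2 : gd (lam • M) 0 w = th (lam • M) 0 / dt (lam • M) * gz (lam • M) 0 w := by
        have := (th_pos hl 0).ne'
        rw [gd, gz]; field_simp
      rw [map_mul, map_mul, e1, Complex.conj_ofReal, Complex.conj_ofReal, e2]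
      push_cast; ring
    rw [e, norm_mul, Complex.norm_conj, Complex.norm_real,
      Real.norm_of_nonneg (div_pos (th_pos hl 0) (dt_pos hl)).le]
    exact le_mul_of_one_le_left (norm_nonneg _) ((one_le_div (dt_pos hl)).2 (dt_le_th hl))

end Crest.Agent.N49.Wf

end
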