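import Crest.Agent.N49.Wf.Df2
import Crest.Agent.N49.Wf.W0
import Crest.Agent.N49.Wf.Wk2
import Crest.Agent.N49.Sd.Ogc

/-!
# Row 49 (helper74): the witness of an origin
-/

set_option autoImplicit false

open Matrix Finset

noncomputable section

namespace Crest.Agent.N49.Wf

open Po Tw Br N49.Top Sd Md Rm

namespace Wo

theorem wit_un {T : TS Unit} {st : T.C → ℕ} {M : ℕ} {N : Matrix T.C T.C ℝ} (h : T.Stg st M)
    (w : Wh T st N) {s d Q : ℕ} {v : ℕ → Finset (Fin (d + 2)) → ℝ} (hv : ∀ j A, 0 < v j A)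
    {f : (T.C → ℤ) → ℝ} {Φ : (T.Cw (R1 s d Q 1 v) → ℤ) → ℝ} {Bl : Set (T.Cw (R1 s d Q 1 v) → ℤ)}
    {δ δ' : ℝ} (e : δ' ≤ δ) (c : Wit s d Q T st v f Φ Bl δ) :
    Wit s d Q (T.un N) st v f Φ Bl δ' :=
  let ⟨α, a, b, k⟩ := c
  ⟨α, a, b, fun y hy => e.trans ((k y hy).trans_eq (@Oc.hid_un _ _ _ _ h w _ (R1 s d Q 1 v)
    (Br.tw_ok (V := fun j w => v j (bl w)) (dc_grid _) fun j _ => hv j _) zw (_) y _).symm)⟩

variable {ι : Type} [Fintype ι] [LinearOrder ι]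

theorem V_bl {x y : ι} {q : ι → ℕ} {s : ℕ} {T : TS Unit} {v : ℕ → Finset ι → ℝ} (c c' : ℝ) (j : ℕ)
    (t : Pt ι) : (gB x y q s T v).V c c' j (fun i => if i ∈ bl t then some 0 else none) =
      (gB x y q s T v).V c c' j t := by
  have m : ∀ i, (if i ∈ bl t then some 0 else none) = none ↔ t i = none := fun i => by
    simp [mem_bl]
  have e : bl ((gB x y q s T v).pu (fun i => if i ∈ bl t then some 0 else none) none none) =
      bl ((gB x y q s T v).pu t none none) := ext fun i => by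
    simp only [mem_bl, Bd.pu]; split_ifs <;> simp [*]
  simp only [Bd.V, m]
  simp only [gB] at e ⊢
  rw [e]

theorem α_le {s d : ℕ} {o : Og s d} {ε : ℝ} (k : o.Ok ε) {z : (gS s o.g o.Q).Zc}
    {x : (gS s o.g o.Q).I → ℤ} (h : o.G z x ≠ 0) : 1 / 2 ^ o.n ≤ o.α ^ o.Q ^ d := by
  obtain ⟨b, b1, b2, -, hf⟩ := k.f
  have a0 := k.α
  obtain ⟨η, hη⟩ : ∃ η, (gS s o.g o.Q).eg (zp 0 1 fun _ => o.Q) o.f z x η ≠ 0 := by
    by_contra c
    push Not at c
    exact h (by simp only [Og.G, Bd.Ok.av, c, mul_zero, tsum_zero])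
  have m : (fun i => if i = 0 ∨ i = 1 then none else some 0) ∈
      zp (0 : Fin (d + 2)) 1 fun _ => o.Q := by
    simp only [zp, mem_filter]
    refine ⟨Gr.mem_zq.2 ⟨by simp, by simp, fun i a e => ?_⟩, fun i p q => by simp [p, q]⟩
    split_ifs at e
    exact Option.some.inj e ▸ k.Q.1
  have f1 := prod_ne_zero_iff.1 hη _ m
  have f2 := (hf ((gS s o.g o.Q).pt (fun i => if i = 0 ∨ i = 1 then none else some 0) z x η)).2
  simp only [Og.f, fA] at f1 f2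
  rw [Set.indicator_of_mem (by
    by_contra c; exact f1 (by rw [Set.indicator_of_notMem c, zero_div])), Pi.one_apply,
    div_le_iff₀ a0] at f2
  rw [div_le_iff₀ (by positivity)]
  refine le_trans ?_ (mul_le_mul_of_nonneg_left b2 (by positivity))
  rw [← mul_pow, mul_comm]
  exact one_le_pow₀ f2

end Wo

theorem wog : WOG := by
  intro s d ε o a k
  have g : Gq o.Q (gS s o.g o.Q) := gq_gB (fun _ _ _ => rfl) _ _ _
  obtain ⟨b, -, -, -, hf⟩ := k.f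
  obtain ⟨lam, l1, l2, sm⟩ := k.sm
  have w := Kg.cw_pos (I := (gS s o.g o.Q).I)
  have c0' : 0 < (1 + (cw (gS s o.g o.Q).I)⁻¹)⁻¹ := by positivity
  have c1 : (1 + (cw (gS s o.g o.Q).I)⁻¹)⁻¹ ≤ 1 :=
    inv_le_one_of_one_le₀ (le_add_of_nonneg_right (by positivity))
  have p : (1 : ℝ) ≤ 2 ^ o.n := one_le_pow₀ one_le_two
  have n2 : (1 : ℝ) / 2 ^ o.cx.n = 1 / 2 ^ o.n / 2 ^ o.n := by
    rw [show o.cx.n = o.n + o.n from two_mul _, pow_add, div_div]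
  obtain ⟨v, hv⟩ : ∃ v : ℕ → Finset (Fin (d + 2)) → ℝ, ∀ j A, v j A = (gS s o.g o.Q).V
      (1 + (cw (gS s o.g o.Q).I)⁻¹)⁻¹ lam j fun i => if i ∈ A then some 0 else none :=
    ⟨_, fun _ _ => rfl⟩
  have lo : ∀ j A, 1 / 2 ^ o.cx.n ≤ v j A := fun j A => by
    have a : ∀ B, 1 / 2 ^ o.n / 2 ^ o.n ≤ o.g.v j B := fun B =>
      (div_le_self (by positivity) p).trans (k.v j B).1
    rw [hv, n2]
    generalize (fun i => if i ∈ A then some 0 else none : Pt (Fin (d + 2))) = t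
    rw [Bd.V]
    split_ifs
    exacts [a _, div_le_div₀ (le_trans (by positivity) (k.v j _).1) (k.v j _).1 (by linarith) l2,
      (a _).trans (le_div_self (le_trans (by positivity) (a _)) c0' c1), a _]
  have v0 : ∀ j A, 0 < v j A := fun j A => lt_of_lt_of_le (by positivity) (lo j A)
  have W := w0 d o.Q _ g o.h.ok o.g.st o.g.M v _ lam b (9 / 10 * (1 / 2 ^ o.n)) (1 / 2 ^ o.n) o.f o.W
    (o.η a) o.h.stg v0 c0' (by linarith) (fun j t _ => (hv _ _).trans (Wo.V_bl _ _ j t)) hf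
    (by positivity) fun z hz =>
      let ⟨s1, S, s2, s3⟩ := sm z hz
      ⟨S, wk2 _ _ _ _ _ _ _ _ S (o.h.ok.lin z).1 l1 s1 s2 (s3 a)⟩
  have z0 : ∀ p, zw (g.co o.h.ok v 1 ⟨.inl (), p⟩).1.2 := fun p =>
    ⟨(congrFun (g.co_tr o.h.ok v 1 _) 0).trans (g.pu0 o.h.ok _ _ _).1,
      (congrFun (g.co_tr o.h.ok v 1 _) 1).trans (g.pu0 o.h.ok _ _ _).2⟩
  have rd : ∀ y ys, Rd Br.gl (Wt d o.Q) o.cx.B v y ys →
      g.rz o.h.ok v y = o.h.zy ys ∧ g.rx o.h.ok v y = o.h.wy ys := fun y ys rd =>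
    ⟨funext fun p => (rd _ (o.h.E (.inl p)) (z0 p).1 ((o.h.E_z p).trans
      (Prod.ext (g.co_F o.h.ok v 1 ⟨.inl (), p⟩).symm (congrArg (lw Br.gl)
        (g.co_tr o.h.ok v 1 ⟨.inl (), p⟩).symm)))).symm,
    funext fun p => (rd _ (o.h.E (.inr p))
      ((congrFun (g.co_tr o.h.ok v 1 _) 0).trans (g.pu0 o.h.ok _ _ _).1) ((o.h.E_x p).trans
      (Prod.ext (g.co_F o.h.ok v 1 ⟨.inr (.inr (.inl 0)), p⟩).symm (congrArg (lw Br.gl)
        (g.co_tr o.h.ok v 1 ⟨.inr (.inr (.inl 0)), p⟩).symm)))).symm⟩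
  refine ⟨v, _, _, fun r y => o.η a (fun p => y ⟨_, z0 p⟩) ⬝ᵥ zc (g.rx o.h.ok v r), lo,
    Wo.wit_un o.h.stg o.h.wh v0 ?_ W, fun ⟨y, hy⟩ => ?_, fun y zs h1 h2 => ?_,
    fun r y zs h1 h2 => ?_⟩
  · rw [pow_succ, ← div_div, n2, mul_assoc, one_div_mul_one_div, div_div 1]
    have : (0 : ℝ) < 1 / (2 ^ o.n * 2 ^ o.n) := by positivity
    linarith
  · obtain ⟨-, S, s2, s3⟩ := sm _ hy
    obtain ⟨p, hp⟩ : S.Nonempty := by
      by_contra c
      rw [Set.not_nonempty_iff_eq_empty.1 c] at s2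
      simp only [Set.indicator_empty, tsum_zero] at s2
      exact absurd s2 (not_le.2 (by positivity))
    by_contra c
    have := s3 a p hp
    have u : ∀ x, o.G (g.rz o.h.ok v y) x = 0 := fun x => not_not.1 (mt (Wo.α_le k) c)
    simp only [u, Complex.ofReal_zero, zero_mul, mul_zero, tsum_zero, norm_zero] at this
    exact absurd this (not_le.2 (by positivity))
  · exact (congrArg (· ∈ o.W) (rd y zs h1).1).mpr h2
  · have e : o.cx.F a (c0 0 (zc zs)) = o.η a (o.h.zy zs) ⬝ᵥ zc (o.h.wy zs) :=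
      o.h.F_eq (o.η a) (P := c0 0 (zc zs)) fun _ => rfl
    have e1 : g.rz o.h.ok v (r + y) = g.rz o.h.ok v y := funext fun p =>
      (congrArg (· + _) (h1 _ (z0 p))).trans (zero_add _)
    have e2 : g.rx o.h.ok v (r + y) = g.rx o.h.ok v r + g.rx o.h.ok v y := rfl
    rw [e, ← (rd y zs h2).1, ← (rd y zs h2).2]
    change o.η a (g.rz o.h.ok v (r + y)) ⬝ᵥ zc (g.rx o.h.ok v (r + y)) =
      _ + o.η a (g.rz o.h.ok v y) ⬝ᵥ _
    rw [e1, e2, zc_add, dotProduct_add, add_comm]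

end Crest.Agent.N49.Wf

end
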