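import Crest.Agent.N49.Wf.Wb
import Crest.Agent.N49.Wf.We
import Crest.Agent.N49.Wf.Wog
import Crest.Agent.N49.Wf.Msb
import Crest.Agent.N49.Wf.Lap
import Crest.Agent.N49.Wf.Rdn
import Crest.Agent.N49.Wf.Usc
import Crest.Agent.N49.Wf.Loc
import Crest.Agent.N49.Wf.Witg
import Crest.Agent.N49.Sd.Ogc
import Crest.Agent.N49.Sd.Kap
import Crest.Agent.N49.Sd.Masz
import Crest.Agent.N49.Md.Xq
import Crest.Agent.N49.Mv.Move
import Crest.Agent.N49.Tw.Fin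

/-!
# Row 49 (helper53): the witness seen from a frame, glue
-/

set_option autoImplicit false

open Matrix MvPolynomial Finset

noncomputable section

namespace Crest.Agent.N49.Wf

open Po Tw Br N49.Top Sd Md Rm

theorem x_im {d Q : ℕ} {A : Finset (Lx d Q)} : 0 ∈ A.image bk ↔ none ∈ A := by
  simp only [mem_image, bk, gk_eq, exists_eq_right]

theorem kp {s d Q h h' ν : ℕ} (hs : 0 < s) {B : Bs (Lb d)} {Φ1 : B.T.C → MvPolynomial B.T.C ℝ}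
    {f : Fr B.T (Lx d Q) (Lb d)} {xs : f.T.C → ℝ} (ly : Lay d Q Br.gl (Wt d Q) bk 0 id)
    (o : B.Ok s h) (k : f.Ok s h') (m : f.m = fun _ => ν)
    {D : Sd.Tan (B.T.setΦ Φ1) (f.T.scl xs) (Fin d × Fin Q)} (xr : Xr id f.θ ν D.fam D.mon D.be)
    {v : ℕ → Finset (Fin (d + 2)) → ℝ} (p : ∀ j A, 0 < v j A) (y : f.T.Cw (R1 s d Q 1 v) → ℤ)
    {ys : f.SC (Wt d Q) → ℤ} (r : Rd Br.gl (Wt d Q) f.toBs v y ys) : ∃ zs,
      Rd Br.gl (Wt d Q) B v ((D.rn (Sd.lt s d Q hs 1)).kap (R1 s d Q 1 v) y) zs ∧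
        ka B (Wt d Q) bk f (c0 0 (zc ys)) = c0 0 (zc zs) := by
  obtain ⟨E, r1, -⟩ := syk _ _ s d Q _ Br.gl (Wt d Q) bk 0 id B v ly o p
  set y' : B.T.Cw (R1 s d Q 1 v) → ℤ := (D.rn (Sd.lt s d Q hs 1)).kap (R1 s d Q 1 v) y with hy
  have z := (r1 ℤ y' fun c => y' (E.symm c).1).2 fun q => by rw [E.symm_apply_apply]
  exact ⟨_, z, kap _ _ s d Q _ _ ν hs Br.gl (Wt d Q) bk 0 id B f
    ⟨D.fam, D.mon, D.be, D.bu, D.bs, D.nu, D.gr⟩ v v ly o k m p xr y ys _ r z⟩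

set_option maxHeartbeats 400000 in
theorem wcore {s d Q h h' ν n M1 C N : ℕ} (hs : 0 < s) {B : Bs (Lb d)}
    {Φ1 : B.T.C → MvPolynomial B.T.C ℝ} {f : Fr B.T (Lx d Q) (Lb d)}
    (ly : Lay d Q Br.gl (Wt d Q) bk 0 id) (o : B.Ok s h) (k : f.Ok s h') (t : f.θ.St B.st f.st)
    (w : f.Fw ν n) (s1 : (B.T.setΦ Φ1).Stg B.st M1) (e0 : (B.T.setΦ Φ1).top.Φ = B.T.Φ) (F0 : B.T.C)
    {H : Set (f.SC (Wt d Q) → ℤ)} {H0 : Set (B.SC (Wt d Q) → ℤ)} (ov : Ov (ka B _ bk f) H H0)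
    (h0 : ∀ z z', (∀ c, none ∉ c.1.2 → z c = z' c) → z' ∈ H0 → z ∈ H0)
    {F : Fm (Lb d) (B.SC (Wt d Q))} {π : B.T.C → ℤ} {c : ℤ} {A : Finset ℕ}
    {a0 η lam κ β δ α α0 : ℝ} {v1 : ℕ → Finset (Fin (d + 2)) → ℝ}
    {Φ : ((B.T.setΦ Φ1).Cw (R1 s d Q 1 v1) → ℤ) → ℝ}
    {Bl : Set ((B.T.setΦ Φ1).Cw (R1 s d Q 1 v1) → ℤ)}
    {θ : ((B.T.setΦ Φ1).Cw (R1 s d Q 1 v1) → ℤ) → (Kc (B.T.setΦ Φ1) (R1 s d Q 1 v1) zw → ℤ) → ℝ}
    (hπ : ∀ F, π F ≠ 0 → B.T.lev F = 1) (hα0 : 0 < α) (δ0 : 0 ≤ δ)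
    (hv1 : ∀ j A, 1 / 2 ^ (2 * n * (d + 2)) ≤ v1 j A)
    (hw : Wit s d Q (B.T.setΦ Φ1) B.st v1 (fA ⟨B.T.setΦ Φ1, π, c⟩ A α) Φ Bl δ)
    (hα : Bl.Nonempty → α0 ≤ α ^ Q ^ d)
    (hBl : ∀ y zs, Rd Br.gl (Wt d Q) B v1 y zs → zs ∈ H0 → y ∈ Bl)
    (hΦ : ∀ (r y : (B.T.setΦ Φ1).Cw (R1 s d Q 1 v1) → ℤ) zs, (∀ c, zw c.1.2 → r c = 0) →
      Rd Br.gl (Wt d Q) B v1 y zs → Φ (r + y) = F (c0 0 (zc zs)) + θ r fun c => y c.1)
    (ma : MAST f.M C) (rg : f.Rg C N a0 η) (η0 : 0 < η)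
    (η1 : η ≤ 1) (ha : a0 ≤ 1 / 2 ^ (2 * n * (d + 2))) (aκ : a0 ≤ κ) (N1 : 1 ≤ N)
    (hN : s * #(grid (q1 d Q 1)) ≤ N) (hL : (Fintype.card (Lp d Q) + 1) ^ s ≤ N)
    (hβ : β ≤ (f.SY (Wt d Q) bk).pr H) (β0 : 0 < β - 3 * η) (hl : 0 < lam)
    (k1 : 2 * lam * (1 + (2 ^ n) ^ 2 * (s * #(grid (q1 d Q 1))) ^ 2 * Fintype.card f.T.C) ≤
      1 / 2 ^ (2 * n * (d + 2))) (k2 : 2 * κ * N * (s * #(grid (q1 d Q 1))) ≤ lam) :
    ∃ (Ψ : f.T.Twd (FR (Lp d Q) s κ)) (g : (f.T.Cw (FR (Lp d Q) s κ) → ℤ) → ℂ)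
      (φ : (Fin d → Fin Q) → (f.T.C → ℤ) → ℂ) (ρ u : f.SC (Wt d Q) → ℝ), f.T.Adm _ f.st Ψ ∧
      (∀ y, ‖g y‖ ≤ 1) ∧ (∀ y y', (∀ p, p.1.2.1 (some none) = 0 → y p = y' p) → g y = g y') ∧
      (∀ y, g y ≠ 0 → ∃ y0 ∈ H, ∀ w, none ∉ w.1.2 → rd f.toBs _ s _ y w = y0 w) ∧
      (∀ ω y, ‖φ ω y‖ ≤ 1) ∧ (∀ w, none ∉ w.1.2 → ρ w = 0) ∧
      (∀ y w, (∏ b ∈ w.1.2, f.la (bk b)) * rd f.toBs _ s _ ((f.T.tw _ Ψ).u y) w =
        (f.SY (Wt d Q) bk).Φ (c0 0 (rd f.toBs _ s _ y + ρ)) w - u w) ∧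
      (β - 3 * η) * δ * α0 / 4 ≤ ‖(f.T.tw _ Ψ).Ec fun y => g y *
        (∏ ω, φ ω (f.T.pw _ (fp s _ (xo ω)) y)) *
          ee (F (ka B _ bk f (c0 0 (zc (rd f.toBs _ s _ y)))))‖ := by
  obtain ⟨γ, ok, adq, hid, nb, xs0, s2, -, rg', -⟩ := Fr.xq o.old s1 e0 k t w F0
    (id : Lx d Q → Option (Fin d × Fin Q))
  have xr := xr_xd f Φ1 F0 (id : Lx d Q → Option (Fin d × Fin Q)) ν γ
  generalize f.xd Φ1 F0 (id : Lx d Q → Option (Fin d × Fin Q)) ν γ = D at ok adq hid nb xr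
  have bs : f.toBs.Ok s n := ⟨k.old, w.la⟩
  obtain ⟨v2, Hb, hv2, hb, hH⟩ := msb s d Q n f.M C N f.toBs f.θ.xs H a0 η β ly bs ma rg η0 η1
    ha xs0 N1 hN hβ
  obtain ⟨h, -, e, e1, e2⟩ := lap d Q
  have p1 : ∀ j A, 0 < v1 j A := fun j A => lt_of_lt_of_le (by positivity) (hv1 j A)
  obtain ⟨E2, r2, -, ty, ph, -⟩ := syk _ _ s d Q _ Br.gl (Wt d Q) bk 0 id f.toBs v1 ly bs p1
  have hB : ∀ y : (f.T.scl f.θ.xs).Cw (R1 s d Q 1 v1) → ℤ, (fun c => y c.1) ∈ Hb →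
      (D.rn (Sd.lt s d Q hs 1)).kap (R1 s d Q 1 v1) y ∈ Bl := fun y m => by
    have r := (r2 ℤ y fun c => y (E2.symm c).1).2 fun q => by rw [E2.symm_apply_apply]
    obtain ⟨zs, z, z'⟩ := kp hs ly o k w.m xr p1 y r
    obtain ⟨y0, m0, l⟩ := hH y _ m r
    obtain ⟨z0, m1, l1⟩ := ov y0 m0
    refine hBl _ zs z (h0 _ _ (fun p n => ?_) m1)
    have := loc _ _ B (Wt d Q) bk 0 f (c0 0 (zc fun c => y (E2.symm c).1)) (TT.cf y0)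
      (fun c n => congrArg Int.cast (l c (mt x_im.2 n))) (fun ℓ n => if_neg n) p (mt x_im.1 n)
    exact Int.cast_injective (α := ℝ) ((congrFun z' _).symm.trans (this.trans (congrFun l1 _)))
  have ne : Bl.Nonempty := by
    rcases Hb.eq_empty_or_nonempty with rfl | ⟨b, m⟩
    · simp only [Set.indicator_empty, TS.N, TS.S, mul_zero, tsum_zero, zero_div] at hb
      exact absurd β0 (not_lt.2 hb)
    · exact ⟨_, hB (Sd.gl _ (R1 s d Q 1 v1) zw b 0) (Set.mem_of_eq_of_mem (funext fun c =>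
        Ip.gl_pos (T := f.T.scl f.θ.xs) (S := R1 s d Q 1 v1) b 0 c.2) m)⟩
  have κ0 : 0 < κ := rg.pos.trans_le aκ
  have hm : (f.T.scl f.θ.xs).HM f.st N κ η := fun _ S Ψ ad sz =>
    ma _ _ _ S _ Ψ N a0 η ((rg' _ _ _ _ rg).hy s2 η0 η1 ad sz le_rfl aκ)
  obtain ⟨Ψ', g, φ, r, ρ, u, ad, g1, g2, g3, g4, f1, hr, hρ, hq, hi⟩ := witb s d Q _ _ N hs _ lp h
    (some none) _ _ _ _ D v1 v2 π c A α Φ Bl _ _ _ _ lam κ η Hb rfl s1 s2 ok adq hid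
    nb hπ hα0 hl κ0 (fun j B => ⟨hv1 j B, hv2 j B⟩) k1 k2 hL hm η1 δ0 β0 hw hb hB
  obtain ⟨Ψ, ad', ec, us⟩ := usc _ f.T _ f.st f.M f.θ.xs Ψ' k.old.stg (fr_sz κ0 hL).toOk xs0 ad
  obtain ⟨d1, d2⟩ := rdn s d Q hs h f.toBs κ v1
  have idl : (R1 s d Q 1 v1).Idl zw := fun w m k r w' i =>
    ⟨Rx.idl (fun j w => v1 j (bl w)) 0 w m k.1 r w' i, Rx.idl (fun j w => v1 j (bl w)) 1 w m k.2 r w' i⟩
  refine ⟨Ψ, fun y => g y * ee (θ r fun c => (D.rn (Sd.lt s d Q hs 1)).kap (R1 s d Q 1 v1)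
    (dn h hs κ v1 f.T y) c.1), fun ω => φ (e ω), fun c => ρ (E2.symm c).1,
    fun c => (∏ b ∈ c.1.2, f.la (bk b)) * (u (E2.symm c).1 / f.θ.xs (E2.symm c).1.1.1), ad',
    fun y => by rw [norm_mul, norm_ee, mul_one]; exact g1 y, fun y y' l => ?_,
    fun y z => hH _ _ (g4 y (left_ne_zero_of_mul z)) (d1 y), fun ω => f1 _, fun c n => ?_,
    fun y c => ?_, le_trans ?_ (hi.trans_eq (congrArg _ ((ec _).trans
      (congrArg _ (funext fun y => ?_)))))⟩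
  · exact congrArg₂ (· * ·) (g2 y y' l) (congrArg (fun z => ee (θ r z)) (funext fun c =>
      Ip.kap_p idl (g3 y y' l) c.2))
  · obtain ⟨q, rfl⟩ := E2.surjective c
    exact (congrArg (fun z => ρ z.1) (E2.symm_apply_apply q)).trans
      (hρ q.1 ⟨q.2, by_contra fun z => n (x_im.1 ((ty q).2 ⟨q.2, z⟩))⟩)
  · obtain ⟨q, rfl⟩ := E2.surjective c
    have t1 := ph (fun c => dr h hs κ v1 f.T y c + ρ c)
      (rd f.toBs _ s κ y + fun c => ρ (E2.symm c).1) (fun ℓ => if ℓ = 0 then 0 else 1) q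
      ((r2 ℝ _ _).2 fun q => congrArg₂ (· + ·) ((r2 ℝ _ _).1 (d2 y) q)
        (congrArg (fun z => ρ z.1) (E2.symm_apply_apply q)))
    have t2 : dr h hs κ v1 _ (((f.T.scl f.θ.xs).tw _ Ψ').u y) q.1 =
        f.θ.xs q.1.1.1 * dr h hs κ v1 f.T ((f.T.tw _ Ψ).u y) q.1 := by
      refine (TS.hmM_mulVec _ _ _).trans (Eq.trans ?_ (congrArg _ (TS.hmM_mulVec _ _ _).symm))
      refine Eq.trans (sum_congr rfl fun p m => ?_) (mul_sum _ _ _).symm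
      exact (congrArg _ ((us y p).trans (congrArg (f.θ.xs · * _) (mem_filter.1 m).2))).trans
        (mul_left_comm _ _ _)
    have t4 : ((f.T.scl f.θ.xs).tw _ (tpw (f.T.scl f.θ.xs) (R1 s d Q 1 v1))).u
        (fun c => dr h hs κ v1 f.T y c + ρ c) q.1 = f.θ.xs q.1.1.1 *
          (f.T.tw _ (tpw f.T (R1 s d Q 1 v1))).u (fun c => dr h hs κ v1 f.T y c + ρ c) q.1 := by
      rw [Mz.tpw_scl]; exact TS.tsc_u _ _
    have t3 := (congrArg (· - u q.1) t4).symm.trans ((hq y q.1 q.2).symm.trans t2)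
    refine Eq.trans ?_ (congrArg₂ (· - ·) t1.symm (congrArg (fun z => (∏ b ∈ (E2 q).1.2,
      f.la (bk b)) * (u z.1 / f.θ.xs z.1.1.1)) (E2.symm_apply_apply q).symm))
    refine (congrArg _ (((r2 ℝ _ _).1 (d2 _) q).trans
      (mul_left_cancel₀ (xs0 q.1.1.1) (t3.symm.trans ?_)))).trans (mul_sub _ _ _)
    rw [mul_sub, mul_div_cancel₀ _ (xs0 _)]
    rfl
  · exact div_le_div_of_nonneg_right (mul_le_mul_of_nonneg_left (hα ne) (mul_nonneg β0.le δ0))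
      zero_le_four
  · obtain ⟨zs, z, z'⟩ := kp hs ly o k w.m xr p1 _ (d1 y)
    refine (congrArg₂ (· * ·) (congrArg _ ((e1 _).trans (prod_congr rfl fun ω _ => congrArg
      (fun t => φ (e ω) (f.T.pw _ (fp s κ t) y)) (funext (e2 ω))))) ((congrArg ee ((hΦ r _ zs hr
        z).trans (congrArg (F · + _) z'.symm))).trans (ee_add _ _))).trans ?_
    exact (by intros; ring : ∀ a b c d : ℂ, a * b * (c * d) = a * d * b * c) _ _ _ _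

theorem num {n N G c L E m : ℕ} (hG : G ≤ N) (hc : c ≤ 2 ^ n) (hL : L = 3 * n + 2 * N + 2 + m)
    (hE : L + 2 * N + 1 ≤ E) : 2 * (1 / 2 ^ L) * (1 + ((2 : ℝ) ^ n) ^ 2 * (G : ℝ) ^ 2 * c) ≤
      1 / 2 ^ m ∧ 2 * (1 / 2 ^ E) * (N : ℝ) * G ≤ 1 / 2 ^ L := by
  have a : (N : ℝ) ≤ 2 ^ N := by exact_mod_cast Nat.lt_two_pow_self.le
  have b : (G : ℝ) ≤ 2 ^ N := le_trans (by exact_mod_cast hG) a
  have c' : (c : ℝ) ≤ 2 ^ n := by exact_mod_cast hc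
  have p : (1 : ℝ) ≤ (2 ^ n) ^ 2 * (2 ^ N) ^ 2 * 2 ^ n := by
    rw [← pow_mul, ← pow_mul, ← pow_add, ← pow_add]; exact one_le_pow₀ one_le_two
  refine ⟨le_trans (b := 2 * (1 / 2 ^ L) * (2 * ((2 ^ n) ^ 2 * (2 ^ N) ^ 2 * 2 ^ n))) ?_ (le_of_eq ?_),
    le_trans (b := 2 * (1 / 2 ^ (L + 2 * N + 1)) * 2 ^ N * 2 ^ N) ?_ (le_of_eq ?_)⟩
  · rw [two_mul (_ * _ * _)]; gcongr
  · rw [hL]; field_simp; ring
  · have := Mv.hf hE; gcongr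
  · field_simp; ring

/-- **the witness seen from a frame** -/
theorem witf (s d : ℕ) : WITF s d := fun M => by
  obtain ⟨C, hC⟩ := mastC M
  obtain ⟨e1, h1⟩ := we s d M
  refine ⟨max e1 (3 * s + 2 * (d + 2) + 4), fun e he => ?_⟩
  obtain ⟨K1, h1⟩ := h1 e ((le_max_left _ _).trans he)
  refine ⟨max K1 ((e + 1) * C + e), fun ε o f H n Y p a => ?_⟩
  have k := p.ok
  have sb := p.fo.sb p.c p.le
  have h2 := sb.two
  have n2 : o.cx.n = 2 * o.n := rfl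
  have le := p.le
  rcases isEmpty_or_nonempty o.g.V.T.C with z | ⟨⟨F0⟩⟩
  · obtain ⟨Ψ, g, u, b1, b2, b3, b4, b5, b6⟩ := h1 o.cx f H n Y ⟨trivial, p.c, p.le, p.fo, p.M,
      Un.rg_mono sb.ok.old.stg p.rg (Nat.pow_le_pow_right (by omega) (le_max_left _ _)), p.sz, p.ov⟩
    refine ⟨Ψ, g, fun _ _ => 1, 0, u, b1, b2, b3, b4, fun _ _ => norm_one.le, fun _ _ => rfl,
      fun y w => (b5 y w).trans (congrArg (fun t => f.S.Φ (c0 0 t) w - u w)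
        (add_zero _).symm), b6.trans_eq (congrArg _ (congrArg _
        (funext fun y => ?_)))⟩
    have : f.F a (c0 0 (zc (rd f.toBs _ s _ y))) = 0 := sum_eq_zero fun r _ => z.elim r.1.1.1
    exact ((congrArg₂ (g y * · * ee ·) prod_const_one this).trans (by simp [ee_zero])).symm
  obtain ⟨ν, w⟩ := p.fo.fw
  obtain ⟨v1, Φ, Bl, θ, hv1, hw, hα, hBl, hΦ⟩ := wog s d ε o a k
  have s0 := Oc.un_stg o.h.stg o.h.wh
  have s1 : (o.cx.B.T.setΦ (o.g.V.T.un o.Nw).Φ).Stg o.cx.B.st o.g.M := s0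
  have e0 : (o.cx.B.T.setΦ (o.g.V.T.un o.Nw).Φ).top.Φ = o.cx.B.T.Φ :=
    funext fun F : o.g.V.T.C => Oc.un_top o.h.stg o.h.wh F
  have pw : ∀ {a b : ℕ}, a ≤ b → n ^ a ≤ n ^ b := Nat.pow_le_pow_right (by omega)
  have t2 : ∀ a : ℕ, a ≤ n ^ a := fun a => Nat.lt_two_pow_self.le.trans (Nat.pow_le_pow_left h2 _)
  have je := (le_max_right _ _).trans he
  set N := n ^ (3 * s + 2 * (d + 2)) with hN
  have a1 : s * #(grid (q1 d o.Q 1)) ≤ N := by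
    have Qn := k.Qn
    refine le_trans (Nat.mul_le_mul (t2 s) ((card_grid_le (b := n) (k := d + 2) (fun i => by
      unfold q1; split_ifs <;> omega) (by simp)).trans (Nat.pow_le_pow_left
        (show n + 1 ≤ n ^ 2 by nlinarith) _))) ?_
    rw [← pow_mul, ← pow_add]; exact pw (by omega)
  have a2 : (Fintype.card (Lp d o.Q) + 1) ^ s ≤ N := by
    refine le_trans ?_ (pw (show 2 * s ≤ _ by omega))
    rw [pow_mul, Fintype.card_option]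
    exact Nat.pow_le_pow_left (by have : Fintype.card (Lx d o.Q) ≤ n := sb.cτ; nlinarith) _
  have a3 : n * (d + 2) ≤ N := (Nat.mul_le_mul_left n (t2 _)).trans (by
    rw [← pow_succ']; exact pw (by omega))
  have a4 : 16 * N ≤ n ^ e := le_trans (by
    rw [pow_add, mul_comm]; exact Nat.mul_le_mul_left _ (Nat.pow_le_pow_left h2 4)) (pw je)
  have a5 : 2 * n ≤ N := by nlinarith
  obtain ⟨k1, k2⟩ := num (E := n ^ e) (m := 2 * n * (d + 2)) a1 p.fo.C rfl (by nlinarith)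
  have η3 : (1 : ℝ) / 2 ^ n ^ e ≤ 1 / 2 ^ (n + 3) := Mv.hf (by omega)
  have β1 : (1 : ℝ) / 2 ^ (n + 1) ≤ 1 / 2 ^ n - 3 * (1 / 2 ^ n ^ e) := by
    have : (1 : ℝ) / 2 ^ (n + 1) + 4 * (1 / 2 ^ (n + 3)) = 1 / 2 ^ n := by field_simp; ring
    have : (0 : ℝ) ≤ 1 / 2 ^ (n + 3) := by positivity
    linarith
  have η1 : (1 : ℝ) / 2 ^ n ^ e ≤ 1 := by simpa using Mv.hf (Nat.zero_le (n ^ e))
  have hβ : (1 : ℝ) / 2 ^ n ≤ f.S.pr H := (_root_.one_div_pow _ _).symm.trans_le p.sz.2.2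
  have h0 : ∀ z z' : o.cx.B.SC (Wt d o.Q) → ℤ, (∀ c, none ∉ c.1.2 → z c = z' c) → z' ∈ o.cx.H →
      z ∈ o.cx.H := fun z z' l m => Set.mem_of_eq_of_mem (x := o.h.zy z) (y := o.h.zy z')
    (s := o.W) (_root_.funext fun r => l _ (mt (o.h.E_mem (.inl r)).1 (by simp))) m
  obtain ⟨Ψ, g, φ, ρ, u, b1, b2, b3, b4, b5, b6, b7, b8⟩ := wcore (by have := k.cx.ds; omega)
    (Oc.lay o.h.ok) k.cx.ok p.fo.ok p.fo.st w s1 e0 F0 p.ov h0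
    (lam := 1 / 2 ^ (3 * n + 2 * N + 2 + 2 * n * (d + 2)))
    (F := o.cx.F a) (π := o.g.V.π) (c := o.g.V.c) (A := o.A) (v1 := v1) (Φ := Φ) (Bl := Bl) (θ := θ)
    k.cs.ok.2.2 k.α (by positivity) (fun j A => (Mv.hf (by nlinarith)).trans (hv1 j A)) hw hα hBl hΦ
    (p.M ▸ (hC C le_rfl).1) ((Mv.rg_up sb.ok.old p.rg h2 (le_max_right _ _)).mono sb.ok.old.stg.tri
      (by positivity) η1 le_rfl (by omega) le_rfl le_rfl) (by positivity) η1 (Mv.hf (by nlinarith))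
    le_rfl (by omega) a1 a2 hβ (lt_of_lt_of_le (by positivity) β1)
    (by positivity) (by exact_mod_cast k1) (by exact_mod_cast k2)
  refine ⟨Ψ, g, φ, ρ, u, b1, b2, b3, b4, b5, b6, b7, le_trans ?_ b8⟩
  refine le_trans (le_of_eq (b := 1 / 2 ^ (n + 1) * (1 / 2 ^ (n + 1)) * (1 / 2 ^ n) / 4)
    (by field_simp; ring)) ?_
  have c1 := Mv.hf (show o.cx.n + 1 ≤ n + 1 by omega)
  have c2 := Mv.hf (show o.n ≤ n by omega)
  have c3 : (0 : ℝ) ≤ 1 / 2 ^ n - 3 * (1 / 2 ^ n ^ e) := le_trans (by positivity) β1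
  gcongr

theorem witgA (s d : ℕ) : WITG s d := witg (witf s d)

end Crest.Agent.N49.Wf

end
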