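import Crest.Agent.N49.Sd.Ed
import Crest.Agent.N49.Sd.Hz
import Crest.Agent.N49.Sw.Defs
import Crest.Agent.N49.Tn.Mul
import Crest.Agent.N49.Br.Tws

/-!
# Row 49 (helper53): the witness on the free ring (FROZEN definitions and leaves)
-/

set_option autoImplicit false

open Matrix MvPolynomial Finset

noncomputable section

namespace Crest.Agent.N49.Wf

open Po Tw Br N49.Top Sd

section free
variable (Λ : Type) [Fintype Λ] [DecidableEq Λ] (s : ℕ) (κ : ℝ)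

/-- the free ring -/
abbrev FR : Sh Unit Λ := Sw.MR (fun _ => ()) (full Λ s) (dk fun _ => κ)

variable {Λ}
/-- the letter `a` goes to the word `le a` -/
def fm {τ : Type} (S : Sh Unit τ) (le : Λ → S.W) : Matrix S.W (FR Λ s κ).W ℤ :=
  Matrix.of fun w μ => S.r w (μ.1.mapDomain le)
/-- the point with coordinates `t` -/
def fp (t : Λ → ℤ) : (FR Λ s κ).W → ℤ := fun μ => μ.1.prod fun a n => t a ^ n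
end free

section letters
variable {ι Λ : Type} [Fintype ι] [LinearOrder ι]

/-- `Λ` names the letters of `D` -/
structure La (D : Finset (Pt ι)) (lt : Λ → ι × ℕ) : Prop where
  inj : Function.Injective lt
  cov : ∀ t ∈ D, ∀ i n, t i = some n → ∃ a, lt a = (i, n)
  mem : ∀ a, Function.update (fun _ => none) (lt a).1 (some (lt a).2) ∈ D

/-- the word of a letter -/
def La.le {D : Finset (Pt ι)} {lt : Λ → ι × ℕ} (h : La D lt) {s : ℕ} (hs : 0 < s) (a : Λ) :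
    Wd s D := ⟨(⟨0, hs⟩, ⟨_, h.mem a⟩), by
  have : bl (Function.update (fun _ => none) (lt a).1 (some (lt a).2)) = {(lt a).1} := by
    ext i; by_cases k : i = (lt a).1 <;> simp [bl, k]
  have : 1 ≤ Fintype.card ι := Fintype.card_pos_iff.2 ⟨(lt a).1⟩
  simp [*]⟩
end letters

/-- leaf: the free ring maps to every ring; points -/
def FHM : Prop := ∀ (τ Λ : Type) [Fintype Λ] [DecidableEq Λ] (S : Sh Unit τ) (le : Λ → S.W)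
  (s : ℕ) (κ : ℝ), S.Ok → (∀ w, S.dg w ≤ s) → (∀ a, S.dg (le a) = 1) →
  (FR Λ s κ).Hm0 S (fm s κ S le) ∧
    ∀ χ : S.W → ℤ, S.Pt s χ → χ ᵥ* fm s κ S le = fp s κ fun a => χ (le a)

/-- leaf: the monomial section of a top-word ring; visible words -/
def SEC : Prop := ∀ (ι Λ : Type) [Fintype ι] [LinearOrder ι] [Fintype Λ] [DecidableEq Λ] (s : ℕ)
  (κ : ℝ) (D : Finset (Pt ι)) (V : ℕ → Pt ι → ℝ) (lt : Λ → ι × ℕ) (h : La D lt) (hs : 0 < s)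
  (x : ι) (p0 : Λ), (∀ i, x ≤ i) → (∀ t ∈ D, bl t = univ → p0 ∈ Br.lw lt t) →
  (∃ β : Wd s D → (FR Λ s κ).W, ∀ w w',
    fm s κ (Br.tw s D V) (h.le hs) w (β w') = if w = w' then 1 else 0) ∧
  (∀ (w : Wd s D) μ, fm s κ (Br.tw s D V) (h.le hs) w μ ≠ 0 → μ.1.support ⊆ Br.lw lt w.tr) ∧
  (∀ (w : Wd s D) μ, w.tr x = none →
    fm s κ (Br.tw s D V) (h.le hs) w μ = if μ.1 = Sy.ind (Br.lw lt w.tr) then 1 else 0) ∧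
  ∀ ω a, chi V ω (h.le hs a) = if a ∈ Br.lw lt ω then 1 else 0

/-- leaf: the norm of a morphism -/
def FNR : Prop := ∀ (τ τ' : Type) (T : TS Unit) (S : Sh Unit τ) (S' : Sh Unit τ')
  (φ : Matrix S'.W S.W ℤ) (sc : T.C → ℝ) (κ lam : ℝ), T.K = diagonal (fun G => sc G ^ 2) →
  (∀ G, sc G ≠ 0) → S.K = diagonal (fun _ => κ) → S'.K = diagonal (fun _ => lam) → 0 < κ →
  0 < lam → (∀ w μ, |φ w μ| ≤ 1) → 2 * κ * Fintype.card S.W * Fintype.card S'.W ≤ lam →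
  ∀ u : T.Cw S → ℝ, 2 * qf (T.sh S').K⁻¹ (T.hmM S S' (rl φ) *ᵥ u) ≤ qf (T.sh S).K⁻¹ u

/-- leaf: **exact lifting** along a split morphism -/
def LIFT : Prop := ∀ (τ τ' : Type) (T : TS Unit) (S : Sh Unit τ) (S' : Sh Unit τ') (st : T.C → ℕ)
  (M : ℕ) (φ : Matrix S'.W S.W ℤ) (β : S'.W → S.W) (Ψ' : T.Twd S') (G : (T.Cw S' → ℤ) → ℝ) (B : ℝ),
  S.Ok → S'.Ok → S.Hm0 S' φ → (∀ w w', φ w (β w') = if w = w' then 1 else 0) → T.Stg st M →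
  T.Adm S' st Ψ' →
  (∀ u : T.Cw S → ℝ, 2 * qf (T.sh S').K⁻¹ (T.hmM S S' (rl φ) *ᵥ u) ≤ qf (T.sh S).K⁻¹ u) →
  (∀ y, |G y| ≤ B) → ∃ (Ψ : T.Twd S) (o : T.Cw S' → ℝ), T.Adm S st Ψ ∧
    (∀ (y : T.Cw S → ℝ) (c : T.Cw S'), (T.hmM S S' (rl φ) *ᵥ (T.tw S Ψ).u y) c =
      (T.tw S' Ψ').u (T.hmM S S' (rl φ) *ᵥ y) c - o c) ∧
    (T.lw S' st Ψ').N G ≤ (T.lw S st Ψ).N fun y => G (T.hm S S' φ y)

/-- leaf: `INS2` with the errors on the words `q` -/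
def INS3 : Prop := ∀ (τ : Type) (T1 T2 : TS Unit) (S : Sh Unit τ) (p q : S.W → Prop)
  [DecidablePred p] (st1 : T1.C → ℕ) (st2 : T2.C → ℕ) (M1 M2 : ℕ) (D : Tan T1 T2 S.W)
  (Ψ1 : T1.Twd S) (K2 K' : Matrix S.W S.W ℝ) (Y : Finset (Kc T2 S p → ℤ))
  (G : (Kc T2 S p → ℤ) → (T1.Cw S → ℤ) → ℝ) (B : ℝ), S.Ok → (S.setK K2).Ok → (S.setK K').Ok →
  S.Idl p → T1.Stg st1 M1 → T2.Stg st2 M2 → D.Ok S.dg st1 st2 0 → D.Adq st1 st2 → D.Rid S →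
  T1.Adm S st1 Ψ1 → (∀ w, p w → q w) →
  (∀ y (c : T1.Cw S), q c.1.2 → (T1.tw S Ψ1).u y c = (T1.tw S (tpw T1 S)).u y c) →
  (∀ u : T2.Cw S → ℝ, 2 * (qf (fb T2 (S.setK K2) p st2 (tpw T2 _) 0).K⁻¹ (fun c => u c.1) +
    qf (fb T1 S (fun w => ¬ p w) st1 Ψ1 0).K⁻¹ fun c => D.L S u c.1) ≤
      qf (T2.kw S T2.K K')⁻¹ u) → (∀ b z, |G b z| ≤ B) →
  ∃ (Ψ : T2.Twd (S.setK K')) (r : T1.Cw S → ℤ) (ρ o : T2.Cw S → ℝ), T2.Adm (S.setK K') st2 Ψ ∧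
    (∀ c, p c.1.2 → r c = 0) ∧ (∀ c, p c.1.2 → ρ c = 0) ∧
    (∀ (y : T2.Cw S → ℝ) (c : T2.Cw S), q c.1.2 →
      (T2.tw (S.setK K') Ψ).u y c = (T2.tw S (tpw T2 S)).u (y + ρ) c - o c) ∧
    ∑ b ∈ Y, (fb T2 (S.setK K2) p st2 (tpw T2 _) 0).wt b / (fb T2 (S.setK K2) p st2 (tpw T2 _) 0).Zc *
        hid T1 S p st1 Ψ1 (D.kap S (gl T2 S p b 0)) (G b) ≤
      (T2.lw (S.setK K') st2 Ψ).N fun y =>
        if (fun c : Kc T2 S p => y c.1) ∈ Y then G (fun c => y c.1) (r + D.kap S y) else 0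

/-- **witnesses**: over every background in `Bl` the count correlates with the phase `Φ` -/
def Wit (s d Q : ℕ) (T : TS Unit) (st : T.C → ℕ) (v : ℕ → Finset (Fin (d + 2)) → ℝ)
    (f : (T.C → ℤ) → ℝ) (Φ : (T.Cw (R1 s d Q 1 v) → ℤ) → ℝ) (Bl : Set (T.Cw (R1 s d Q 1 v) → ℤ))
    (δ : ℝ) : Prop := ∃ α : (T.Cw (R1 s d Q 1 v) → ℤ) → ℂ, (∀ y, ‖α y‖ ≤ 1) ∧
  (∀ y y', (∀ c, Wd.tr c.1.2 1 = none → y c = y' c) → α y = α y') ∧ ∀ b ∈ Bl,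
    δ ≤ hid T (R1 s d Q 1 v) zw st (T.tw0 _) b fun y =>
      (α y * ee (Φ y)).re * PF T s (q1 d Q 1) v (fun _ => f) y

/-- leaf: witnesses from the fibres -/
def W0 : Prop := ∀ (d Q : ℕ) (B : Bd (Fin (d + 2))) (g : Gq Q B) (h : B.Ok) (st : B.T.C → ℕ)
  (M : ℕ) (v : ℕ → Finset (Fin (d + 2)) → ℝ) (c c' b δ0 δ1 : ℝ) (f : (B.T.C → ℤ) → ℝ)
  (W : Set B.Zc) (η : B.Zc → B.I → ℝ), B.T.Stg st M → (∀ j A, 0 < v j A) → 0 < c → 0 < c' →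
  (∀ j t, ¬ (t 0 = none ∧ t 1 = none) → v j (bl t) = B.V c c' j t) → (∀ y, 0 ≤ f y ∧ f y ≤ b) →
  0 ≤ δ1 → (∀ z ∈ W, ∃ S : Set (B.I → ℤ),
    δ0 ≤ ∑' p, S.indicator (gd (c • h.M z) (h.ce z)) p ∧ ∀ p ∈ S,
      δ1 ≤ ‖∑' w, (gd (c' • h.M z) 0 w : ℂ) *
        (h.av (B.eg (zp 0 1 fun _ => Q) f) z (p + w) * ee (η z ⬝ᵥ zc w))‖) →
  Wit B.s d Q B.T st v f (fun y => η (g.rz h v y) ⬝ᵥ zc (g.rx h v y)) {y | g.rz h v y ∈ W} (δ0 * δ1)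

/-- leaf: the third clause of `KO` in the form used by `W0` -/
def WK : Prop := ∀ (I : Type) [Fintype I] [DecidableEq I] (M : Matrix I I ℝ) (θ η : I → ℝ)
  (g : (I → ℤ) → ℝ) (lam δ0 δ1 : ℝ) (S : Set (I → ℤ)), M.PosDef → 1 ≤ lam →
  th ((2 : ℝ) • lam • M)⁻¹ 0 ≤ 11 / 10 → δ0 ≤ ∑' p, S.indicator (gz (mp M M) θ) p →
  (∀ p ∈ S, δ1 ≤ ‖∑' w, (gz (lam • M) 0 w : ℂ) * (g (p + w) * ee (-(η ⬝ᵥ zc w)))‖) →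
  9 / 10 * δ0 ≤ ∑' p, S.indicator (gd ((1 + (cw I)⁻¹)⁻¹ • M) θ) p ∧
    ∀ p ∈ S, δ1 ≤ ‖∑' w, (gd (lam • M) 0 w : ℂ) * (g (p + w) * ee (η ⬝ᵥ zc w))‖

/-- leaf: change of the phase -/
def W3 : Prop := ∀ (τ Z : Type) (V : TS τ) (g : (V.C → ℤ) → ℂ) (Φ Γ : (V.C → ℤ) → ℝ)
  (z : (V.C → ℤ) → Z) (Bad : Set (V.C → ℤ)) (ε η : ℝ), V.Tri → (∀ y, ‖g y‖ ≤ 1) → 0 ≤ ε →
  V.P Bad ≤ η → (∀ y y', y ∉ Bad → y' ∉ Bad → g y ≠ 0 → g y' ≠ 0 → z y = z y' →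
    ∃ n : ℤ, |Φ y - Γ y - (Φ y' - Γ y') - n| ≤ ε) →
  ∃ c : Z → ℝ, ‖V.Ec fun y => g y * ee (Φ y)‖ - 7 * ε - 2 * η ≤
    ‖V.Ec fun y => g y * ee (c (z y)) * ee (Γ y)‖

/-- the image of a configuration of the free ring -/
abbrev dn {s d Q : ℕ} {Λ : Type} [Fintype Λ] [DecidableEq Λ] {lt : Λ → Fin (d + 2) × ℕ}
    (h : La (grid (q1 d Q 1)) lt) (hs : 0 < s) (κ : ℝ) (v : ℕ → Finset (Fin (d + 2)) → ℝ)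
    (T : TS Unit) (y : T.Cw (FR Λ s κ) → ℤ) : T.Cw (R1 s d Q 1 v) → ℤ :=
  T.hm (FR Λ s κ) (R1 s d Q 1 v) (fm s κ (R1 s d Q 1 v) (h.le hs)) y

/-- **the witness on the free ring**, semantic form -/
def WITA : Prop := ∀ (s d Q M1 M2 n m : ℕ) (hs : 0 < s) (Λ : Type) [Fintype Λ] [DecidableEq Λ]
  (lt : Λ → Fin (d + 2) × ℕ) (h : La (grid (q1 d Q 1)) lt) (x0 : Λ) (T1 T2 : TS Unit)
  (st1 : T1.C → ℕ) (st2 : T2.C → ℕ) (D : Tan T1 T2 (Fin d × Fin Q))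
  (v1 v2 : ℕ → Finset (Fin (d + 2)) → ℝ) (π : T1.C → ℤ) (c : ℤ) (A : Finset ℕ) (α : ℝ)
  (Φ : (T1.Cw (R1 s d Q 1 v1) → ℤ) → ℝ) (Γ : (T2.Cw (R1 s d Q 1 v1) → ℤ) → ℝ)
  (Bl : Set (T1.Cw (R1 s d Q 1 v1) → ℤ)) (δ β X a lam κ η B t : ℝ)
  (H : Set (Kc T2 (R1 s d Q 1 v2) zw → ℤ)), lt x0 = (1, 0) →
  T1.Stg st1 M1 → T2.Stg st2 M2 → D.Ok (fun _ => 1) st1 st2 0 → D.Adq st1 st2 → D.Id → D.Nb X →
  (∀ F, π F ≠ 0 → T1.lev F = 1) → 0 < α → 0 < lam → 0 < κ → (∀ j B, a ≤ v1 j B ∧ a ≤ v2 j B) →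
  2 * lam * (1 + X ^ 2 * (s * #(grid (q1 d Q 1))) ^ 2 * Fintype.card T2.C) ≤ a →
  2 * κ * n * (s * #(grid (q1 d Q 1))) ≤ lam → (Fintype.card Λ + 1) ^ s ≤ n →
  T2.HM st2 n κ η → 0 ≤ η → η ≤ 1 / 8 → 0 ≤ δ → 0 < β → 0 ≤ B → 0 ≤ t →
  (Fintype.card T2.C * n + 1) * (m + 1) * κ ≤ t ^ 2 →
  Wit s d Q T1 st1 v1 (fA ⟨T1, π, c⟩ A α) Φ Bl δ →
  β ≤ (fb T2 (R1 s d Q 1 v2) zw st2 (tpw T2 _) 0).N (H.indicator 1) →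
  (∀ y : T2.Cw (R1 s d Q 1 v1) → ℤ, (fun c => y c.1) ∈ H →
    (D.rn (Sd.lt s d Q hs 1)).kap (R1 s d Q 1 v1) y ∈ Bl) →
  (∀ (r : T1.Cw (R1 s d Q 1 v1) → ℤ) (ρ : T2.Cw (R1 s d Q 1 v1) → ℝ)
    (y y' : T2.Cw (R1 s d Q 1 v1) → ℤ), (∀ c, zw c.1.2 → r c = 0) → (∀ c, zw c.1.2 → ρ c = 0) →
    (fun c => y c.1) ∈ H → (∀ c, zw c.1.2 → y c = y' c) →
    (∀ c, xw c.1.2 → ((T2.tw _ (tpw T2 (R1 s d Q 1 v1))).u (zc y + ρ) c -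
      (T2.tw _ (tpw T2 (R1 s d Q 1 v1))).u (zc y' + ρ) c) ^ 2 ≤ (2 * t) ^ 2 * T2.K c.1.1 c.1.1) →
    ∃ k : ℤ, |Φ (r + (D.rn (Sd.lt s d Q hs 1)).kap _ y) - Γ y -
      (Φ (r + (D.rn (Sd.lt s d Q hs 1)).kap _ y') - Γ y') - k| ≤ B * t) →
  ∃ (Ψ : T2.Twd (FR Λ s κ)) (g : (T2.Cw (FR Λ s κ) → ℤ) → ℂ)
    (f : Pt (Fin (d + 1)) → (T2.C → ℤ) → ℂ), T2.Adm _ st2 Ψ ∧ (∀ y, ‖g y‖ ≤ 1) ∧
    (∀ y y', (∀ p, p.1.2.1 x0 = 0 → y p = y' p) → g y = g y') ∧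
    (∀ y, g y ≠ 0 → (fun c => dn h hs κ v1 T2 y c.1) ∈ H) ∧ (∀ ω y, ‖f ω y‖ ≤ 1) ∧
    β * δ * α ^ Q ^ d / 4 - 7 * (B * t) - 2 / 2 ^ m ≤ ‖(T2.tw _ Ψ).Ec fun y => g y *
      (∏ ω ∈ pts (q0 d Q 1), f ω (T2.pw _ (fp s κ fun a => if a ∈ Br.lw lt
        (Function.extend Fin.succ ω fun _ => some 0) then 1 else 0) y)) *
      ee (Γ (dn h hs κ v1 T2 y))‖

end Crest.Agent.N49.Wf

end
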