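import Crest.Agent.N49.Wf.Defs
import Crest.Agent.N49.Sd.Fk
import Crest.Agent.N49.Sd.Eb

/-!
# Row 49 (helper53): the witness of an origin seen from a frame (FROZEN statements)
-/

set_option autoImplicit false

open Matrix MvPolynomial Finset

noncomputable section

namespace Crest.Agent.N49.Wf

open Po Tw Br N49.Top Sd Md Rm

/-- all the letters: `none` is the hidden letter, `some none` is the marked letter -/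
abbrev Lp (d Q : ℕ) : Type := Option (Lx d Q)
/-- their places in the grid -/
def lp {d Q : ℕ} (a : Lp d Q) : Fin (d + 2) × ℕ := a.elim (0, 0) Br.gl
/-- the point `ω`: one clone in each block -/
def xo {d Q : ℕ} (ω : Fin d → Fin Q) (a : Lp d Q) : ℤ :=
  a.elim 1 fun b => b.elim 1 fun t => if ω t.1 = t.2 then 1 else 0

/-- the visible words of a configuration of the free ring -/
def rd {τ L : Type} [Fintype τ] [DecidableEq τ] (B : Bs L) (W : Finset (Finset τ)) (s : ℕ) (κ : ℝ)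
    {R : Type} [AddCommMonoid R] (y : B.T.Cw (FR (Option τ) s κ) → R) (w : B.SC W) : R :=
  Sw.ex B.T _ id y (w.1.1, (Sy.ind w.1.2).mapDomain some)

/-- **the witness seen from a frame**: the twist is a shift of the marked words -/
def WITF (s d : ℕ) : Prop := ∀ M : ℕ, ∃ e0 : ℕ, ∀ e, e0 ≤ e → ∃ K : ℕ, ∀ (ε : ℝ) (o : Og s d)
  (f : o.cx.Fr) (H : Set (f.X → ℤ)) (n Y : ℕ), Pre s (fun o => o.Ok ε) Og.cx o f H n Y M K →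
  ∀ a : Fin o.D, ∃ (Ψ : f.T.Twd (FR (Lp d o.Q) s (1 / 2 ^ n ^ e)))
    (g : (f.T.Cw (FR (Lp d o.Q) s (1 / 2 ^ n ^ e)) → ℤ) → ℂ)
    (φ : (Fin d → Fin o.Q) → (f.T.C → ℤ) → ℂ) (ρ u : f.X → ℝ), f.T.Adm _ f.st Ψ ∧
    (∀ y, ‖g y‖ ≤ 1) ∧ (∀ y y', (∀ p, p.1.2.1 (some none) = 0 → y p = y' p) → g y = g y') ∧
    (∀ y, g y ≠ 0 → ∃ y0 ∈ H, ∀ w, none ∉ w.1.2 → rd f.toBs _ s _ y w = y0 w) ∧
    (∀ ω y, ‖φ ω y‖ ≤ 1) ∧ (∀ w, none ∉ w.1.2 → ρ w = 0) ∧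
    (∀ y w, (∏ b ∈ w.1.2, f.la (bk b)) * rd f.toBs _ s _ ((f.T.tw _ Ψ).u y) w =
      f.S.Φ (c0 0 (rd f.toBs _ s _ y + ρ)) w - u w) ∧
    1 / 2 ^ (3 * n + 4) ≤ ‖(f.T.tw _ Ψ).Ec fun y => g y *
      (∏ ω, φ ω (f.T.pw _ (fp s _ (xo ω)) y)) * ee (f.F a (c0 0 (zc (rd f.toBs _ s _ y))))‖

/-- **the same with any phase `Γ` that differs from the datum by a trivial form** -/
def WITG (s d : ℕ) : Prop := ∀ M : ℕ, ∃ e0 : ℕ, ∀ e, e0 ≤ e → ∃ K : ℕ, ∀ (ε : ℝ) (o : Og s d)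
  (f : o.cx.Fr) (H : Set (f.X → ℤ)) (n Y : ℕ), Pre s (fun o => o.Ok ε) Og.cx o f H n Y M K →
  ∀ (a : Fin o.D) (Γ : Fm (Lb d) f.X), f.S.Dat univ {0} Γ →
  (∀ y ∈ H, f.S.Rel univ {0} y 1 (2 ^ n) fun p => f.F a p - Γ p) →
  ∃ (Ψ : f.T.Twd (FR (Lp d o.Q) s (1 / 2 ^ n ^ e)))
    (g : (f.T.Cw (FR (Lp d o.Q) s (1 / 2 ^ n ^ e)) → ℤ) → ℂ)
    (φ : (Fin d → Fin o.Q) → (f.T.C → ℤ) → ℂ), f.T.Adm _ f.st Ψ ∧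
    (∀ y, ‖g y‖ ≤ 1) ∧ (∀ y y', (∀ p, p.1.2.1 (some none) = 0 → y p = y' p) → g y = g y') ∧
    (∀ y, g y ≠ 0 → ∃ y0 ∈ H, ∀ w, none ∉ w.1.2 → rd f.toBs _ s _ y w = y0 w) ∧
    (∀ ω y, ‖φ ω y‖ ≤ 1) ∧ 1 / 2 ^ (3 * n + 5) ≤ ‖(f.T.tw _ Ψ).Ec fun y => g y *
      (∏ ω, φ ω (f.T.pw _ (fp s _ (xo ω)) y)) * ee (Γ (c0 0 (zc (rd f.toBs _ s _ y))))‖

/-! ### leaves -/

/-- leaf: the letters name the grid; the points -/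
def LAP : Prop := ∀ d Q : ℕ, La (grid (q1 d Q 1)) (lp (d := d) (Q := Q)) ∧
  (∀ t : Pt (Fin (d + 2)), t 0 = none →
    Sy.ind (Br.lw (lp (Q := Q)) t) = (Sy.ind (Br.lw Br.gl t)).mapDomain some) ∧
  ∃ e : (Fin d → Fin Q) → Pt (Fin (d + 1)),
    (∀ G : Pt (Fin (d + 1)) → ℂ, ∏ ω ∈ pts (q0 d Q 1), G ω = ∏ ω, G (e ω)) ∧
    ∀ ω a, (if a ∈ Br.lw lp (Function.extend Fin.succ (e ω) fun _ => some 0) then 1 else 0) = xo ω a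

/-- the image of a real configuration of the free ring -/
abbrev dr {s d Q : ℕ} {Λ : Type} [Fintype Λ] [DecidableEq Λ] {lt : Λ → Fin (d + 2) × ℕ}
    (h : La (grid (q1 d Q 1)) lt) (hs : 0 < s) (κ : ℝ) (v : ℕ → Finset (Fin (d + 2)) → ℝ)
    (T : TS Unit) (y : T.Cw (FR Λ s κ) → ℝ) : T.Cw (R1 s d Q 1 v) → ℝ :=
  T.hmM (FR Λ s κ) (R1 s d Q 1 v) (rl (fm s κ (R1 s d Q 1 v) (h.le hs))) *ᵥ y

/-- leaf: `rd` reads the kept words of the image -/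
def RDN : Prop := ∀ (s d Q : ℕ) (hs : 0 < s) (h : La (grid (q1 d Q 1)) (lp (d := d) (Q := Q)))
  (B : Bs (Lb d)) (κ : ℝ) (v : ℕ → Finset (Fin (d + 2)) → ℝ),
  (∀ y, Rd Br.gl (Wt d Q) B v (dn h hs κ v B.T y) (rd B _ s κ y)) ∧
  ∀ y, Rd Br.gl (Wt d Q) B v (dr h hs κ v B.T y) (rd B _ s κ y)

/-- leaf: a twist of the rescaled tower is a twist of the tower -/
def USC : Prop := ∀ (τ : Type) (T : TS Unit) (S : Sh Unit τ) (st : T.C → ℕ) (M : ℕ) (xs : T.C → ℝ)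
  (Ψ' : (T.scl xs).Twd S), T.Stg st M → S.Ok → (∀ c, xs c ≠ 0) → (T.scl xs).Adm S st Ψ' →
  ∃ Ψ : T.Twd S, T.Adm S st Ψ ∧ (∀ G, ((T.scl xs).tw S Ψ').Ec G = (T.tw S Ψ).Ec G) ∧
    ∀ y (p : T.Cw S), ((T.scl xs).tw S Ψ').u y p = xs p.1.1 * (T.tw S Ψ).u y p

/-- leaf: **the witness of an origin**, for the whitened tower -/
def WOG : Prop := ∀ (s d : ℕ) (ε : ℝ) (o : Og s d) (a : Fin o.D), o.Ok ε →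
  ∃ (v : ℕ → Finset (Fin (d + 2)) → ℝ)
    (Φ : ((o.g.V.T.un o.Nw).Cw (R1 s d o.Q 1 v) → ℤ) → ℝ)
    (Bl : Set ((o.g.V.T.un o.Nw).Cw (R1 s d o.Q 1 v) → ℤ))
    (θ : ((o.g.V.T.un o.Nw).Cw (R1 s d o.Q 1 v) → ℤ) →
      (Kc (o.g.V.T.un o.Nw) (R1 s d o.Q 1 v) zw → ℤ) → ℝ),
    (∀ j A, 1 / 2 ^ o.cx.n ≤ v j A) ∧
    Wit s d o.Q (o.g.V.T.un o.Nw) o.g.st v o.f Φ Bl (1 / 2 ^ (o.cx.n + 1)) ∧
    (Bl.Nonempty → 1 / 2 ^ o.n ≤ o.α ^ o.Q ^ d) ∧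
    (∀ y zs, Rd Br.gl (Wt d o.Q) o.cx.B v y zs → zs ∈ o.cx.H → y ∈ Bl) ∧
    ∀ (r y : (o.g.V.T.un o.Nw).Cw (R1 s d o.Q 1 v) → ℤ) zs, (∀ c, zw c.1.2 → r c = 0) → Rd Br.gl (Wt d o.Q) o.cx.B v y zs →
      Φ (r + y) = o.cx.F a (c0 0 (zc zs)) + θ r fun c => y c.1

/-- leaf: the mass of the backgrounds of a dense set -/
def MSB : Prop := ∀ (s d Q h M C n : ℕ) (B : Bs (Lb d)) (xs : B.T.C → ℝ)
  (H : Set (B.SC (Wt d Q) → ℤ)) (a η β : ℝ), Lay d Q Br.gl (Wt d Q) bk 0 id → B.Ok s h →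
  MAST B.M C → B.Rg C n a η → 0 < η → η ≤ 1 → a ≤ 1 / 2 ^ (2 * h * (d + 2)) → (∀ c, xs c ≠ 0) →
  1 ≤ n → s * #(grid (q1 d Q 1)) ≤ n → β ≤ (B.SY (Wt d Q) bk).pr H →
  ∃ (v : ℕ → Finset (Fin (d + 2)) → ℝ) (Hb : Set (Kc (B.T.scl xs) (R1 s d Q 1 v) zw → ℤ)),
    (∀ j A, 1 / 2 ^ (2 * h * (d + 2)) ≤ v j A) ∧
    β - 3 * η ≤ (fb (B.T.scl xs) (R1 s d Q 1 v) zw B.st (tpw _ _) 0).N (Hb.indicator 1) ∧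
    ∀ (y : B.T.Cw (R1 s d Q 1 v) → ℤ) ys, (fun c => y c.1) ∈ Hb → Rd Br.gl (Wt d Q) B v y ys →
      ∃ y0 ∈ H, ∀ w, none ∉ w.1.2 → ys w = y0 w

/-- leaf: the background of the image only sees the background -/
def LOC : Prop := ∀ (τ L : Type) [Fintype τ] [DecidableEq τ] [Fintype L] [DecidableEq L] (B : Bs L)
  (W : Finset (Finset τ)) (blk : τ → L) (x : L) (f : Fr B.T τ L) (p p' : f.SC W ⊕ L → ℝ),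
  (∀ w : f.SC W, x ∉ w.1.2.image blk → p (.inl w) = p' (.inl w)) →
  (∀ ℓ, ℓ ≠ x → p (.inr ℓ) = p' (.inr ℓ)) →
  ∀ w : B.SC W, x ∉ w.1.2.image blk → ka B W blk f p (.inl w) = ka B W blk f p' (.inl w)

/-- **the witness on the free ring**, with the shape of the twist -/
def WITB : Prop := ∀ (s d Q M1 M2 n : ℕ) (hs : 0 < s) (Λ : Type) [Fintype Λ] [DecidableEq Λ]
  (lt : Λ → Fin (d + 2) × ℕ) (h : La (grid (q1 d Q 1)) lt) (x0 : Λ) (T1 T2 : TS Unit)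
  (st1 : T1.C → ℕ) (st2 : T2.C → ℕ) (D : Sd.Tan T1 T2 (Fin d × Fin Q))
  (v1 v2 : ℕ → Finset (Fin (d + 2)) → ℝ) (π : T1.C → ℤ) (c : ℤ) (A : Finset ℕ) (α : ℝ)
  (Φ : (T1.Cw (R1 s d Q 1 v1) → ℤ) → ℝ) (Bl : Set (T1.Cw (R1 s d Q 1 v1) → ℤ))
  (δ β X a lam κ η : ℝ) (H : Set (Kc T2 (R1 s d Q 1 v2) zw → ℤ)), lt x0 = (1, 0) →
  T1.Stg st1 M1 → T2.Stg st2 M2 → D.Ok (fun _ => 1) st1 st2 0 → D.Adq st1 st2 → D.Id → D.Nb X →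
  (∀ F, π F ≠ 0 → T1.lev F = 1) → 0 < α → 0 < lam → 0 < κ → (∀ j B, a ≤ v1 j B ∧ a ≤ v2 j B) →
  2 * lam * (1 + X ^ 2 * (s * #(grid (q1 d Q 1))) ^ 2 * Fintype.card T2.C) ≤ a →
  2 * κ * n * (s * #(grid (q1 d Q 1))) ≤ lam → (Fintype.card Λ + 1) ^ s ≤ n →
  T2.HM st2 n κ η → η ≤ 1 → 0 ≤ δ → 0 < β → Wit s d Q T1 st1 v1 (fA ⟨T1, π, c⟩ A α) Φ Bl δ →
  β ≤ (fb T2 (R1 s d Q 1 v2) zw st2 (tpw T2 _) 0).N (H.indicator 1) →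
  (∀ y : T2.Cw (R1 s d Q 1 v1) → ℤ, (fun c => y c.1) ∈ H →
    (D.rn (Sd.lt s d Q hs 1)).kap (R1 s d Q 1 v1) y ∈ Bl) →
  ∃ (Ψ : T2.Twd (FR Λ s κ)) (g : (T2.Cw (FR Λ s κ) → ℤ) → ℂ)
    (f : Pt (Fin (d + 1)) → (T2.C → ℤ) → ℂ) (r : T1.Cw (R1 s d Q 1 v1) → ℤ)
    (ρ u : T2.Cw (R1 s d Q 1 v1) → ℝ), T2.Adm _ st2 Ψ ∧ (∀ y, ‖g y‖ ≤ 1) ∧
    (∀ y y', (∀ p, p.1.2.1 x0 = 0 → y p = y' p) → g y = g y') ∧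
    (∀ y y', (∀ p, p.1.2.1 x0 = 0 → y p = y' p) → ∀ c, zw c.1.2 →
      dn h hs κ v1 T2 y c = dn h hs κ v1 T2 y' c) ∧
    (∀ y, g y ≠ 0 → (fun c => dn h hs κ v1 T2 y c.1) ∈ H) ∧ (∀ ω y, ‖f ω y‖ ≤ 1) ∧
    (∀ c, zw c.1.2 → r c = 0) ∧ (∀ c, zw c.1.2 → ρ c = 0) ∧
    (∀ y c, kw c.1.2 → dr h hs κ v1 T2 ((T2.tw _ Ψ).u y) c =
      (T2.tw _ (tpw T2 (R1 s d Q 1 v1))).u (dr h hs κ v1 T2 y + ρ) c - u c) ∧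
    β * δ * α ^ Q ^ d / 4 ≤ ‖(T2.tw _ Ψ).Ec fun y => g y *
      (∏ ω ∈ pts (q0 d Q 1), f ω (T2.pw _ (fp s κ fun a => if a ∈ Br.lw lt
        (Function.extend Fin.succ ω fun _ => some 0) then 1 else 0) y)) *
      ee (Φ (r + (D.rn (Sd.lt s d Q hs 1)).kap (R1 s d Q 1 v1) (dn h hs κ v1 T2 y)))‖

end Crest.Agent.N49.Wf

end
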