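import Crest.Agent.N49.Wf.Df2

/-!
# Row 49 (helper53): the witness without phase (FROZEN statement)
-/

set_option autoImplicit false

open Matrix MvPolynomial Finset

noncomputable section

namespace Crest.Agent.N49.Wf

open Po Tw Br N49.Top Sd Md Rm

/-- leaf: a dense set of symbol configurations is seen by a narrow twisted law on the free ring -/
def WE (s d : ℕ) : Prop := ∀ M : ℕ, ∃ e0 : ℕ, ∀ e, e0 ≤ e → ∃ K : ℕ, ∀ (c : Kx d) (f : c.Fr)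
  (H : Set (f.X → ℤ)) (n Y : ℕ), Pre s (fun _ => True) id c f H n Y M K →
  ∃ (Ψ : f.T.Twd (FR (Lp d c.Q) s (1 / 2 ^ n ^ e)))
    (g : (f.T.Cw (FR (Lp d c.Q) s (1 / 2 ^ n ^ e)) → ℤ) → ℂ) (u : f.X → ℝ), f.T.Adm _ f.st Ψ ∧
    (∀ y, ‖g y‖ ≤ 1) ∧ (∀ y y', (∀ p, p.1.2.1 (some none) = 0 → y p = y' p) → g y = g y') ∧
    (∀ y, g y ≠ 0 → ∃ y0 ∈ H, ∀ w, none ∉ w.1.2 → rd f.toBs _ s _ y w = y0 w) ∧
    (∀ y w, (∏ b ∈ w.1.2, f.la (bk b)) * rd f.toBs _ s _ ((f.T.tw _ Ψ).u y) w =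
      f.S.Φ (c0 0 (rd f.toBs _ s _ y)) w - u w) ∧
    1 / 2 ^ (3 * n + 4) ≤ ‖(f.T.tw _ Ψ).Ec g‖

end Crest.Agent.N49.Wf

end
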