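import Crest.Agent.N49.Wf.Defs
import Crest.Agent.N49.Tw.ConM

/-!
# Row 49 (helper68): the free ring maps to every ring (`FHM`)
-/

set_option autoImplicit false

open Matrix MvPolynomial Finset

noncomputable section

namespace Crest.Agent.N49.Wf

open Po Tw

namespace Fh

theorem ae_mon {V U : Type} (f : V → U →₀ ℕ) (m : V →₀ ℕ) :
    aeval (fun v => (monomial (f v) 1 : MvPolynomial U ℤ)) (monomial m (1 : ℤ)) =
      monomial (Finsupp.weight f m) 1 := by
  rw [aeval_monomial, map_one, one_mul]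
  induction m using Finsupp.induction_linear with
  | zero => simp
  | add a b h k =>
    rw [Finsupp.prod_add_index' (by simp) (by simp [pow_add]), h, k, map_add, monomial_mul, one_mul]
  | single a n => simp [Finsupp.weight_single, monomial_pow]

variable {τ Λ : Type} {S : Sh Unit τ} {le : Λ → S.W}

theorem wt_map (h : ∀ a, S.dg (le a) = 1) (μ : Λ →₀ ℕ) :
    Finsupp.weight S.dg (μ.mapDomain le) = μ.degree := by
  induction μ using Finsupp.induction_linear with
  | zero => simp
  | add a b h k => rw [Finsupp.mapDomain_add, map_add, map_add, h, k]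
  | single a n => simp [Finsupp.weight_single, h]

theorem map_ne (h : ∀ a, S.dg (le a) = 1) {μ : Λ →₀ ℕ} (k : μ ≠ 0) : μ.mapDomain le ≠ 0 :=
  fun z => k ((Finsupp.degree_eq_zero_iff _).1 (by rw [← wt_map h, z, map_zero]))

end Fh

open Fh in
theorem fhm : FHM := by
  intro τ Λ _ _ S le s κ o hs h1
  refine ⟨⟨fun w μ z => unit_ext ((Sh.cd_degree w).trans (((o.gr_dg z).symm.trans
    (wt_map h1 μ.1)).trans (Sh.cd_degree (S := FR Λ s κ) μ).symm)), fun w m z => ?_⟩,
    fun χ p => funext fun μ => ?_⟩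
  · have a := Sh.Cg.aeval (R := ℤ) o
      (y := fun μ : (FR Λ s κ).W => S.el fun w => fm s κ S le w μ)
      (y' := fun μ => monomial (μ.1.mapDomain le) 1) (fun μ => by
        have := o.cg_el (P := monomial (μ.1.mapDomain le) 1) ((constantCoeff_monomial _ _).trans
          (if_neg (map_ne h1 (Sh.MW.ne μ))))
        simp only [Sh.cf_monomial, one_mul, Int.cast_id] at this
        exact this) (monomial m 1) (some w)
    refine Eq.trans ?_ a.symm
    let x : Λ →₀ ℕ := Finsupp.weight (fun μ : (FR Λ s κ).W => (μ.1 : Λ →₀ ℕ)) m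
    rw [ae_mon, Sh.cu_some, Sh.cf_monomial, one_mul, Int.cast_id]
    refine Eq.trans ?_ (congrArg (S.r w) (weight_hom (Finsupp.mapDomain.addMonoidHom le)
      (fun μ : (FR Λ s κ).W => (μ.1 : Λ →₀ ℕ)) m).symm)
    change _ = S.r w (x.mapDomain le)
    by_cases e : x.degree ≤ s
    · let μ0 : (FR Λ s κ).W := ⟨x, mem_erase.2 ⟨Sh.weight_ne z, mem_full.2 e⟩⟩
      refine (sum_eq_single μ0 (fun μ _ ne => mul_eq_zero_of_right _
        (if_neg fun k => ne (Subtype.ext k.symm))) fun k => absurd (mem_univ _) k).trans ?_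
      exact (congrArg _ (if_pos rfl : (FR Λ s κ).r μ0 m = 1)).trans (mul_one _)
    · rw [of_not_not fun k : ¬S.r w (x.mapDomain le) = 0 =>
        e (((wt_map h1 x).symm.trans (o.gr_dg k)).trans_le (hs w))]
      exact sum_eq_zero fun μ _ => mul_eq_zero_of_right _ (if_neg fun k =>
        e ((congrArg Finsupp.degree k).trans_le (mem_full.1 (Sh.MW.mem μ))))
  · have a := p.mul _ (map_ne h1 (Sh.MW.ne μ)) ((wt_map h1 _).trans_le (mem_full.1 (Sh.MW.mem μ)))
    rw [Finsupp.prod_mapDomain_index (by simp) (by simp [pow_add])] at a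
    exact Eq.trans (sum_congr rfl fun w _ => mul_comm _ _) a.symm

end Crest.Agent.N49.Wf

end
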