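import Crest.Agent.N49.Wf.Wa
import Crest.Agent.N49.Wf.Df2
import Crest.Agent.N49.Wf.Fnr
import Crest.Agent.N49.Wf.Lift
import Crest.Agent.N49.Wf.Sec
import Crest.Agent.N49.Wf.Fhm
import Crest.Agent.N49.Sd.Insa
import Crest.Agent.N49.Sd.Tanr
import Crest.Agent.N49.Sd.Nrm
import Crest.Agent.N49.Sd.Kwt
import Crest.Agent.N49.Sd.Pos

/-!
# Row 49 (helper53): the witness on the free ring with the shape of the twist
-/

set_option autoImplicit false

open Matrix MvPolynomial Finset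

noncomputable section

namespace Crest.Agent.N49.Wf

open Po Tw Br N49.Top Sd Un

theorem witb : WITB := by
  intro s d Q M1 M2 n hs Λ _ _ lt h x0 T1 T st1 st D v1 v2 π c A α Φ Bl δ β X a lam κ η H
    hx s1 g ok adq hid nb hπ hα hl hκ hv ha k1 k2 hm η1 δ0 hβ hw hH hB
  obtain ⟨Ψ', r, ρ, o, g0, f, ad, hr, hρ, hq, g1, g2, g3, f1, hi⟩ :=
    stA tanr nrm kwt pos hs s1 g ok adq hid nb hπ hα hl hv ha δ0 hβ hw hH hB
  obtain ⟨sc, hK, hc⟩ := nb.2
  have sz := fr_sz (s := s) hκ k2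
  have o' : (R1 s d Q 1 fun _ _ => lam).Ok := gr_ok fun _ _ => hl
  obtain ⟨p0, hp⟩ := ex_p h
  obtain ⟨⟨b, hb⟩, -, -, -⟩ := sec _ Λ s κ _ (fun _ _ => lam) lt h hs 0 p0 Fin.zero_le hp
  have hm0 := (fhm Unit Λ (R1 s d Q 1 fun _ _ => lam) (h.le hs) s κ o'
    (fun w => (tw_dg (V := fun _ _ => lam) w).trans_le w.1.1.2)
    fun a => tw_dg (V := fun _ _ => lam) (h.le hs a)).1
  have c1 : (Fintype.card (FR Λ s κ).W : ℝ) ≤ n := by exact_mod_cast sz.card
  have c2 : (Fintype.card (R1 s d Q 1 fun _ _ => lam).W : ℝ) ≤ s * #(grid (q1 d Q 1)) := by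
    exact_mod_cast (Fintype.card_subtype_le _).trans (by simp)
  have n1 : ∀ y : T.Cw (R1 s d Q 1 fun _ _ => lam) → ℤ, ‖g0 y * Pp lam f y *
      ee (Φ (r + (D.rn (Sd.lt s d Q hs 1)).kap (R1 s d Q 1 v1) y))‖ ≤ 1 := fun y => by
    rw [norm_mul, norm_ee, mul_one, norm_mul, Pp, Complex.ofReal_prod, norm_prod]
    exact mul_le_one₀ (g1 y) (by positivity) (prod_le_one (by simp) fun _ _ => f1 _ _)
  obtain ⟨Ψ, o1, adm, hu, hN⟩ := lift insaA Λ Unit T (FR Λ s κ) (R1 s d Q 1 fun _ _ => lam) st M2 _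
    b Ψ' _ 1 sz.toOk o' hm0 hb g ad
    (fnr _ _ T _ _ _ sc κ lam hK (fun G => (hc G).1) (fr_K s κ) rfl hκ hl (fun w μ => by
      change |(if _ then 1 else 0 : ℤ)| ≤ 1
      split_ifs <;> simp) (le_trans (by gcongr) k1))
    fun y => (Complex.abs_re_le_norm _).trans (n1 y)
  have tr := TS.tw_tri g.cl adm sz.toOk
  have e1 := N_half tr ((TS.lw_mas g adm sz.toOk).1 (hm _ _ _ adm sz)) η1 (by positivity)
    (hi.trans (hN.trans_eq (TS.lw_N g adm sz.toOk _)))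
  have e2 := e1.trans ((tr.re_Ec (.of fun y => n1 (dn h hs κ _ T y))).symm.trans_le
    (Complex.re_le_norm _))
  refine ⟨Ψ, fun y => g0 (dn h hs κ _ T y), fun ω y => f ω y, r, ρ, fun c => o c + o1 c, adm, fun y => g1 _,
    fun y y' e => g3 _ _ (dn_loc h hs sec (v := fun _ _ => lam) hx e),
    fun y y' e c k => dn_loc h hs sec hx e c k.2, fun y z => g2 _ z, f1, hr, hρ,
    fun y c k => (hu y c).trans ((congrArg (· - o1 c) (hq _ c k)).trans (sub_sub _ _ _)),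
    le_trans (le_of_eq (by ring)) (e2.trans_eq (congrArg _ (congrArg _ (funext fun y => ?_))))⟩
  rw [Pp, Complex.ofReal_prod]
  exact congrArg₂ (· * ·) (congrArg _ (prod_congr rfl fun ω k =>
    congrArg (fun z => (f ω z : ℂ)) (pw_dn h hs fhm sec hl k y))) rfl

end Crest.Agent.N49.Wf

end
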