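import Crest.Agent.N49.Wf.Df3
import Crest.Agent.N49.Wf.Wb
import Crest.Agent.N49.Wf.Wog
import Crest.Agent.N49.Wf.Lap
import Crest.Agent.N49.Wf.Usc
import Crest.Agent.N49.Wf.Msb
import Crest.Agent.N49.Wf.Rdn
import Crest.Agent.N49.Wf.We
import Crest.Agent.N49.Wf.Witg
import Crest.Agent.N49.Sd.Endb2

/-!
# Row 49 (helper1): the witness seen from a frame (glue)
-/

set_option autoImplicit false

open Matrix MvPolynomial Finset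

noncomputable section

namespace Crest.Agent.N49.Wf

open Po Tw Br N49.Top Sd Md Rm

namespace W2

theorem rd_zc {τ L : Type} [Fintype τ] [DecidableEq τ] (B : Bs L) (W : Finset (Finset τ)) (s : ℕ)
    (κ : ℝ) (xs : B.T.C → ℝ) (u : B.T.Cw (FR (Option τ) s κ) → ℝ) (w : B.SC W) :
    rd B W s κ (fun p => xs p.1.1 * u p) w = xs w.1.1 * rd B W s κ u w := by
  unfold rd Sw.ex
  rw [mul_sum]
  exact sum_congr rfl fun p m => congrArg (fun F => xs F * u p) (mem_filter.1 m).2.1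

theorem nA {s m G c n : ℕ} (hG : s * m ≤ G) (hc : c ≤ 2 ^ n) :
    2 * (1 / 2 ^ (4 * n + 2 * G + 2) : ℝ) * (1 + (2 ^ n) ^ 2 * (s * m) ^ 2 * c) ≤ 1 / 2 ^ n := by
  have : (s * m : ℝ) ≤ G := by exact_mod_cast hG
  exact le_trans (by gcongr) (lam_le (G := G) hc le_rfl)

theorem nB {s m G N n : ℕ} {κ : ℝ} (hG : s * m ≤ G) (hκ : κ ≤ 1 / 2 ^ (4 * n + 3 * G + N + 3)) :
    2 * κ * N * (s * m) ≤ 1 / 2 ^ (4 * n + 2 * G + 2) := by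
  have := Un.half_mul (a := 4 * n + 2 * G + 2) (b := 4 * n + 3 * G + N + 3) (x := 2 * N * (s * m))
    (k := 1 + N + G) (by
      rw [pow_add, pow_add]
      exact Nat.mul_le_mul (Nat.mul_le_mul_left _ Nat.lt_two_pow_self.le)
        (hG.trans Nat.lt_two_pow_self.le)) (by omega)
  push_cast at this
  have := mul_le_mul_of_nonneg_right hκ (show (0 : ℝ) ≤ 2 * N * (s * m) by positivity)
  linarith

theorem nC {n l : ℕ} {κ : ℝ} (h : n + 3 ≤ l) (hκ : κ ≤ 1 / 2 ^ l) :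
    1 / 2 ^ (n + 1) ≤ (1 / 2 : ℝ) ^ n - 3 * κ := by
  have a := hκ.trans (Un.half_le h)
  have e : (1 / 2 : ℝ) ^ n = 8 * (1 / 2 ^ (n + 3)) := by rw [_root_.one_div_pow]; ring
  have e' : (1 : ℝ) / 2 ^ (n + 1) = 4 * (1 / 2 ^ (n + 3)) := by ring
  have : (0 : ℝ) < 1 / 2 ^ (n + 3) := by positivity
  linarith

theorem nD {n a b : ℕ} {x : ℝ} (ha : a ≤ n) (hb : b ≤ n) (hx : 1 / 2 ^ b ≤ x) :
    1 / 2 ^ (3 * n + 4) ≤ 1 / 2 ^ (n + 1) * (1 / 2 ^ (a + 1)) * x / 4 := by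
  have a := mul_le_mul (mul_le_mul_of_nonneg_left (Un.half_le (show a + 1 ≤ n + 1 by omega))
    (show (0 : ℝ) ≤ 1 / 2 ^ (n + 1) by positivity)) ((Un.half_le hb).trans hx)
    (by positivity) (by positivity)
  have e : (1 : ℝ) / 2 ^ (3 * n + 4) = 1 / 2 ^ (n + 1) * (1 / 2 ^ (n + 1)) * (1 / 2 ^ n) / 4 := by
    ring
  linarith

theorem nE {x P a b c : ℝ} (x0 : x ≠ 0) (h : x * a = x * b - c) :
    P * a = P * b - P * (c / x) := by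
  rw [← mul_sub, (eq_div_iff x0).2 ((mul_comm _ _).trans h), sub_div, mul_div_cancel_left₀ _ x0]

variable {s d : ℕ}

theorem main {c : Kx d} {f : c.Fr} {H : Set (f.X → ℤ)} {n Y M1 C N G n1 n0 : ℕ} {κ α : ℝ}
    (k : c.Ok s) (hn : c.n ≤ n) (fo : f.Fo s n Y) (sz : Rm.Sz n f.S H) (ov : Ov f.k H c.H)
    (lay : Lay d c.Q Br.gl (Wt d c.Q) bk 0 id) {Φ0 : c.B.T.C → MvPolynomial c.B.T.C ℝ}
    (s1 : (c.B.T.setΦ Φ0).Stg c.B.st M1) (e1 : (c.B.T.setΦ Φ0).top.Φ = c.B.T.Φ) (F0 : c.B.T.C)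
    (a : Fin c.D) {π : c.B.T.C → ℤ} {c' : ℤ} {A : Finset ℕ} (hπ : ∀ F, π F ≠ 0 → c.B.T.lev F = 1)
    (hα : 0 < α) (iv : ∀ w ∈ c.H, ∀ w', (∀ z, 0 ∉ c.SY.ty z → w' z = w z) → w' ∈ c.H)
    {v1 : ℕ → Finset (Fin (d + 2)) → ℝ} {Φ : (c.B.T.Cw (R1 s d c.Q 1 v1) → ℤ) → ℝ}
    {Bl : Set (c.B.T.Cw (R1 s d c.Q 1 v1) → ℤ)} {θ : (c.B.T.Cw (R1 s d c.Q 1 v1) → ℤ) →
      (Kc c.B.T (R1 s d c.Q 1 v1) zw → ℤ) → ℝ} (w1 : ∀ j A, 1 / 2 ^ c.n ≤ v1 j A)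
    (w2 : Wit s d c.Q (c.B.T.setΦ Φ0) c.B.st v1 (fA ⟨c.B.T.setΦ Φ0, π, c'⟩ A α) Φ Bl
      (1 / 2 ^ (c.n + 1))) (w3 : Bl.Nonempty → 1 / 2 ^ n0 ≤ α ^ c.Q ^ d) (N9 : n0 ≤ n)
    (w4 : ∀ y zs, Rd Br.gl (Wt d c.Q) c.B v1 y zs → zs ∈ c.H → y ∈ Bl)
    (w5 : ∀ (r y : c.B.T.Cw (R1 s d c.Q 1 v1) → ℤ) zs, (∀ z, zw z.1.2 → r z = 0) →
      Rd Br.gl (Wt d c.Q) c.B v1 y zs → Φ (r + y) = c.F a (c0 0 (zc zs)) + θ r fun z => y z.1)
    (ma : MAST f.M C) (r1 : f.Rg C N κ κ) (κ0 : 0 < κ) (hG : s * #(grid (q1 d c.Q 1)) ≤ G)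
    (hN : (n + 2) ^ s + G ≤ N) (h1 : 2 * n * (d + 2) = n1) (nn : n ≤ n1)
    (hκ : κ ≤ 1 / 2 ^ (4 * n1 + 3 * G + N + 3)) :
    ∃ (Ψ : f.T.Twd (FR (Lp d c.Q) s κ)) (g : (f.T.Cw (FR (Lp d c.Q) s κ) → ℤ) → ℂ)
    (φ : (Fin d → Fin c.Q) → (f.T.C → ℤ) → ℂ) (ρ u : f.X → ℝ), f.T.Adm _ f.st Ψ ∧
    (∀ y, ‖g y‖ ≤ 1) ∧ (∀ y y', (∀ p, p.1.2.1 (some none) = 0 → y p = y' p) → g y = g y') ∧
    (∀ y, g y ≠ 0 → ∃ y0 ∈ H, ∀ w, none ∉ w.1.2 → rd f.toBs _ s _ y w = y0 w) ∧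
    (∀ ω y, ‖φ ω y‖ ≤ 1) ∧ (∀ w, none ∉ w.1.2 → ρ w = 0) ∧
    (∀ y w, (∏ b ∈ w.1.2, f.la (bk b)) * rd f.toBs _ s _ ((f.T.tw _ Ψ).u y) w =
      f.S.Φ (c0 0 (rd f.toBs _ s _ y + ρ)) w - u w) ∧
    1 / 2 ^ (3 * n + 4) ≤ ‖(f.T.tw _ Ψ).Ec fun y => g y *
      (∏ ω, φ ω (f.T.pw _ (fp s _ (xo ω)) y)) * ee (f.F a (c0 0 (zc (rd f.toBs _ s _ y))))‖ := by
  have hs : 0 < s := lt_of_lt_of_le (Nat.succ_pos _) k.ds
  have κ1 : κ ≤ 1 := hκ.trans (div_le_one_of_le₀ (one_le_pow₀ one_le_two) (by positivity))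
  have N1 : 1 ≤ (n + 2) ^ s := Nat.one_le_pow _ _ (by omega)
  have κ2 : κ ≤ 1 / 2 ^ (2 * n * (d + 2)) := hκ.trans (Un.half_le (by omega))
  have N2 : 1 ≤ N := by omega
  have N3 : s * #(grid (q1 d c.Q 1)) ≤ N := by omega
  have N4 : (Fintype.card (Lp d c.Q) + 1) ^ s ≤ N := le_trans (Nat.pow_le_pow_left
    (show _ ≤ n + 2 from Nat.add_le_add_right (Fintype.card_option.trans_le
      (Nat.add_le_add_right (k.τ.trans hn) 1)) 1) s) (by omega)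
  have N5 : (1 : ℝ) / 2 ^ n1 ≤ 1 / 2 ^ c.n := Un.half_le (by omega)
  have N6 := nC (n := n) (by omega) hκ
  have N7 := nB hG hκ
  have N8 := nA hG (fo.C.trans (Nat.pow_le_pow_right two_pos nn))
  have q1' : (0 : ℝ) < 1 / 2 ^ (4 * n1 + 2 * G + 2) := by positivity
  have q2' : (0 : ℝ) ≤ 1 / 2 ^ (c.n + 1) := by positivity
  have q3' : (0 : ℝ) < 1 / 2 ^ (n + 1) := by positivity
  have q4' : (0 : ℝ) < 1 / 2 ^ c.n := by positivity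
  have Hn : H.Nonempty := by
    rw [Set.nonempty_iff_ne_empty]
    rintro rfl
    have := sz.2.2
    simp only [TT.pr, Set.indicator_empty, tsum_zero, zero_div] at this
    exact this.not_gt (by positivity)
  obtain ⟨ν, fw⟩ := fo.fw
  obtain ⟨γ, a1, a2, a3, a4, a5, a6, -, a8, -⟩ := Fr.xq k.ok.old s1 e1 fo.ok fo.st fw F0
    (id : Lx d c.Q → Option (Fin d × Fin c.Q))
  obtain ⟨la, -, e, l3, l4⟩ := lap d c.Q
  obtain ⟨v2, Hb, m1, m2, m3⟩ := msb s d c.Q n f.M C N f.toBs f.θ.xs H κ κ _ lay fo.bs ma r1 κ0 κ1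
    κ2 a5 N2 N3 sz.2.2
  rw [h1] at m1
  have p1 : ∀ j A, 0 < v1 j A := fun j A => q4'.trans_le (w1 j A)
  obtain ⟨eB, b1, -⟩ := syk _ _ s d c.Q _ Br.gl (Wt d c.Q) gk 0 id c.B v1 lay k.ok p1
  obtain ⟨ef, f1, f2, f3, f4, -⟩ := syk _ _ s d c.Q _ Br.gl (Wt d c.Q) gk 0 id f.toBs v1 lay
    fo.ok.toOk p1
  have lm := (morw k.ok fo.ok fw (Kx.wf k) fo.C).toLm
  have xt : ∀ w : f.X, 0 ∉ f.S.ty w ↔ none ∉ w.1.2 := fun w => not_congr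
    (mem_image.trans ⟨fun ⟨b, x, y⟩ => (gk_eq b).1 y ▸ x, fun x => ⟨_, x, rfl⟩⟩)
  let D := f.xd Φ0 F0 (id : Lx d c.Q → Option (Fin d × Fin c.Q)) ν γ
  let kp : (f.T.Cw (R1 s d c.Q 1 v1) → ℤ) → c.B.T.Cw (R1 s d c.Q 1 v1) → ℤ :=
    fun y => (D.rn (Sd.lt s d c.Q hs 1)).kap (R1 s d c.Q 1 v1) y
  have rz : ∀ y, Rd Br.gl (Wt d c.Q) c.B v1 (kp y) fun z => kp y (eB.symm z).1 := fun y =>
    (b1 ℤ _ _).2 fun q => by rw [eB.symm_apply_apply]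
  have ka1 : ∀ y ys, Rd Br.gl (Wt d c.Q) f.toBs v1 y ys →
      f.k (c0 0 (zc ys)) = c0 0 (zc fun z => kp y (eB.symm z).1) := fun y ys h =>
    kap _ _ s d c.Q _ _ ν hs Br.gl (Wt d c.Q) gk 0 id c.B f
      ⟨D.fam, D.mon, D.be, D.bu, D.bs, D.nu, D.gr⟩ v1 v1 lay k.ok fo.ok fw.m p1
      (xr_xd f Φ0 F0 id ν γ) y ys _ h (rz y)
  have lc : ∀ (ys ys' : f.X → ℤ) (ε' : Lb d → ℝ), (∀ w, none ∉ w.1.2 → ys w = ys' w) →
      (∀ l, l ≠ 0 → ε' l = 1) → ∀ z, 0 ∉ c.SY.ty z →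
        f.k (c0 0 (zc ys)) (.inl z) = f.k (Sum.elim (zc ys') ε') (.inl z) :=
    fun ys ys' ε' h1 h2 z => lm.off (ℓ := 0) (by
      rintro (c | ℓ) m
      · exact congrArg Int.cast (h1 c ((xt c).1 m))
      · have : ℓ ≠ 0 := fun e => m (mem_singleton.2 e.symm)
        exact (if_neg this).trans (h2 _ this).symm) (.inl z)
  have hb : ∀ y : f.T.Cw (R1 s d c.Q 1 v1) → ℤ, (fun z => y z.1) ∈ Hb → kp y ∈ Bl := fun y hy => by
    have rd0 : Rd Br.gl (Wt d c.Q) f.toBs v1 y fun z => y (ef.symm z).1 :=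
      (f1 ℤ _ _).2 fun q => congrArg (fun z => y z.1) (ef.symm_apply_apply q)
    obtain ⟨y0, h0, ag⟩ := m3 y _ hy rd0
    obtain ⟨w, hw, ew⟩ := ov y0 h0
    exact w4 _ _ (rz y) (iv w hw _ fun z hz => Int.cast_injective (α := ℝ)
      ((congrFun (ka1 y _ rd0) _).symm.trans ((lc _ y0 (fun _ => 1) ag (fun _ _ => rfl) z hz).trans
        (congrFun ew _))))
  obtain ⟨Ψ', g', φ', r, ρ', u', c1, c3, c4, c5, c6, c7, c8, c9, c10, c11⟩ := witb s d c.Q M1 f.M N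
    hs (Lp d c.Q) lp la (some none) (c.B.T.setΦ Φ0) (f.T.scl f.θ.xs) c.B.st
    f.st D v1 v2 π c' A α Φ Bl (1 / 2 ^ (c.n + 1)) (1 / 2 ^ (n + 1)) (2 ^ n1)
    (1 / 2 ^ n1) (1 / 2 ^ (4 * n1 + 2 * G + 2)) κ κ Hb rfl s1 a6 a1 a2 a3
    (E2.nb_mono a4 (pow_le_pow_right₀ one_le_two nn)) hπ hα q1' κ0
    (fun j B => ⟨N5.trans (w1 j B), m1 j B⟩) N8 N7 N4
    (fun _ _ _ ad sz => ma _ _ _ _ _ _ _ _ _ ((a8 _ _ _ _ r1).hy a6 κ0 κ1 ad sz le_rfl le_rfl)) κ1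
    q2' q3' w2 (N6.trans m2) hb
  obtain ⟨Ψ, u1, u2, u3⟩ := usc _ f.T (FR (Lp d c.Q) s κ) f.st f.M f.θ.xs Ψ' fo.ok.old.stg
    (fr_sz κ0 le_rfl).toOk a5 c1
  obtain ⟨d1, d2⟩ := Wf.rdn s d c.Q hs la f.toBs κ v1
  have zq : ∀ w : f.X, none ∉ w.1.2 → zw (ef.symm w).1.1.2 := fun w m => ⟨(ef.symm w).2,
    by_contra fun z => (xt w).2 m ((congrArg (fun z => 0 ∈ f.S.ty z) (ef.apply_symm_apply w)).mp
      ((f3 (ef.symm w)).2 ⟨(ef.symm w).2, z⟩))⟩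
  have rq : ∀ {R : Type} {y : f.T.Cw (R1 s d c.Q 1 v1) → R} {ys}, Rd Br.gl (Wt d c.Q) f.toBs v1 y ys →
      ∀ w, ys w = y (ef.symm w).1 := fun {_ _ ys} h w =>
    (congrArg ys (ef.apply_symm_apply w)).symm.trans ((f1 _ _ _).1 h (ef.symm w))
  refine ⟨Ψ, fun y => g' y * ee (θ r fun z => kp (dn la hs κ v1 f.T y) z.1), fun ω => φ' (e ω),
    fun w => ρ' (ef.symm w).1, fun w => (∏ b ∈ w.1.2, f.la (bk b)) * (u' (ef.symm w).1 /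
      f.θ.xs w.1.1), u1, fun y => by rw [norm_mul, norm_ee, mul_one]; exact c3 y,
    fun y y' h => congrArg₂ HMul.hMul (c4 y y' h) (congrArg (fun z => ee (θ r z))
      (funext fun z => ?_)), fun y h => m3 _ _ (c6 y (left_ne_zero_of_mul h)) (d1 y),
    fun ω => c7 _, fun w m => c9 _ (zq w m), fun y w => ?_, ?_⟩
  · obtain ⟨eB', b1', -, b3, -⟩ := syk _ _ s d c.Q _ Br.gl (Wt d c.Q) gk 0 id c.B v1 lay k.ok p1
    have := lc _ (rd f.toBs _ s κ y') (fun l => if l = 0 then 0 else 1) (fun w m =>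
      (rq (d1 y) w).trans ((c5 y y' h _ (zq w m)).trans (rq (d1 y') w).symm))
      (fun l m => if_neg m) (eB' ⟨z.1, z.2.1⟩) fun x => ((b3 _).1 x).2 z.2.2
    have t := (congrFun (ka1 _ _ (d1 y)) _).symm.trans (this.trans (congrFun (ka1 _ _ (d1 y')) _))
    exact ((b1' ℤ _ _).1 (rz _) ⟨z.1, z.2.1⟩).symm.trans ((Int.cast_injective (α := ℝ) t).trans
      ((b1' ℤ _ _).1 (rz _) ⟨z.1, z.2.1⟩))
  · obtain ⟨q, rfl⟩ := ef.surjective w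
    have hF : (ef q).1.1 = q.1.1.1 := congrArg Prod.fst (f2 q)
    have t1 := c10 y q.1 q.2
    have t2 : ((f.T.scl f.θ.xs).tw (FR (Lp d c.Q) s κ) Ψ').u y =
        fun p => f.θ.xs p.1.1 * (f.T.tw (FR (Lp d c.Q) s κ) Ψ).u y p := funext (u3 y)
    have t3 : ∀ z, ((f.T.scl f.θ.xs).tw (R1 s d c.Q 1 v1) (tpw _ _)).u z q.1 =
        f.θ.xs q.1.1.1 * (f.T.tw (R1 s d c.Q 1 v1) (tpw _ _)).u z q.1 := fun z => by
      rw [Mz.tpw_scl]; exact TS.tsc_u (T := f.T) _ _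
    have t4 := ((rd_zc f.toBs _ s κ f.θ.xs _ (ef q)).symm.trans
      ((f1 ℝ _ _).1 (d2 _) q)).trans ((congrArg (fun z => dr la hs κ v1 f.T z q.1) t2).symm.trans
        (t1.trans (congrArg (· - u' q.1) (t3 _))))
    have t5 := f4 (fun z => dr la hs κ v1 f.T y z + ρ' z) (rd f.toBs _ s κ y + fun w => ρ' (ef.symm w).1)
      (fun l => if l = 0 then 0 else 1) q ((f1 ℝ _ _).2 fun q => congrArg₂ HAdd.hAdd
        ((f1 ℝ _ _).1 (d2 _) q) (congrArg (fun z => ρ' z.1) (ef.symm_apply_apply q)))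
    refine Eq.trans ?_ (congrArg₂ HSub.hSub t5.symm rfl)
    have t6 := (congrArg (fun F => f.θ.xs F * _) hF).symm.trans t4
    refine (nE (a5 q.1.1.1) t6).trans (congrArg₂ HSub.hSub rfl (congrArg (_ * ·) ?_))
    exact congrArg₂ HDiv.hDiv (congrArg (fun z => u' z.1) (ef.symm_apply_apply q)).symm
      (congrArg f.θ.xs hF).symm
  · refine le_trans ?_ (congrArg norm (u2 _)).le
    refine (nD hn N9 (w3 ?_)).trans (c11.trans_eq (congrArg (fun G => ‖TS.Ec _ G‖)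
      (funext fun y => ?_)))
    · obtain ⟨y, hy⟩ := Hn
      obtain ⟨w, hw, -⟩ := ov y hy
      exact ⟨fun z => if h : kw z.1.2 then w (eB ⟨z, h⟩) else 0,
        w4 _ w ((b1 ℤ _ _).2 fun q => (dif_pos (t := fun h => w (eB ⟨q.1, h⟩))
          (e := fun _ => 0) q.2).symm) hw⟩
    · have t := (w5 r (kp (dn la hs κ v1 f.T y)) _ c8 (rz _)).trans
        (congrArg (fun P => c.F a P + _) (ka1 _ _ (d1 y)).symm)
      refine (congrArg₂ HMul.hMul (congrArg (g' y * ·) (l3 _)) ((congrArg ee t).trans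
        (ee_add _ _))).trans ?_
      simp only [l4]
      exact (by intros; ring : ∀ a b c d : ℂ, a * b * (c * d) = a * d * b * c) _ _ _ _

end W2

open W2 in
/-- **the witness seen from a frame** -/
theorem witf2 (s d : ℕ) : WITF s d := fun M => by
  obtain ⟨C, hC⟩ := (mastC M).imp fun C h => (h C le_rfl).1
  obtain ⟨e1, we⟩ := Wf.we s d M
  obtain ⟨e0, e2, h⟩ := (show Pl fun n => 8 * n * (d + 2) + 3 * (s * (n + 1) ^ (d + 2)) +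
    ((n + 2) ^ s + s * (n + 1) ^ (d + 2)) + 3 by pl).ge e1
  refine ⟨e0, fun e he => ?_⟩
  obtain ⟨K1, we⟩ := we e (e2.trans he)
  refine ⟨K1 + e * C + e, fun ε o f H n Y p a => ?_⟩
  have n2 : 2 ≤ n := p.c.n2.trans p.le
  have h := (h n n2).trans (Nat.pow_le_pow_right (by omega) he)
  beta_reduce at h
  rcases isEmpty_or_nonempty o.g.V.T.C with i | ⟨⟨F0⟩⟩
  · obtain ⟨Ψ, g, u, a1, a2, a3, a4, a5, a6⟩ := we o.cx f H n Y ⟨trivial, p.c, p.le, p.fo, p.M,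
      Un.rg_mono p.fo.ok.old.stg p.rg (Nat.pow_le_pow_right (by omega) (by omega)), p.sz, p.ov⟩
    refine ⟨Ψ, g, fun _ _ => 1, 0, u, a1, a2, a3, a4, by simp, fun _ _ => rfl,
      fun y w => (a5 y w).trans (congrArg (fun z => f.S.Φ (c0 0 z) w - u w) (add_zero _).symm), a6.trans_eq (congrArg (fun G => ‖TS.Ec _ G‖)
        (funext fun y => ?_))⟩
    have z : ∀ P, o.cx.F a P = 0 := fun P => sum_eq_zero fun r _ => i.elim r.1.1.1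
    simp [Kx.Fr.F, z, ee]
  · have Qn : o.cx.Q ≤ n := p.ok.Qn.trans (le_trans (by omega : o.n ≤ 2 * o.n) p.le)
    have k : o.Ok ε := p.ok
    have s0 := Oc.un_stg o.h.stg o.h.wh
    have s1 : (o.cx.B.T.setΦ (o.g.V.T.un o.Nw).Φ).Stg o.cx.B.st o.g.M := s0
    have e1 : (o.cx.B.T.setΦ (o.g.V.T.un o.Nw).Φ).top.Φ = o.cx.B.T.Φ :=
      funext fun F : o.g.V.T.C => Oc.un_top o.h.stg o.h.wh F
    obtain ⟨v1, Φ, Bl, θ, w1, w2, w3, w4, w5⟩ := wog s d ε o a k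
    exact main p.c p.le p.fo p.sz p.ov (Oc.lay o.h.ok) s1 e1 F0 a (π := o.g.V.π) (c' := o.g.V.c)
      (A := o.A) k.cs.ok.2.2 k.α (fun w hw w' h => by
        have : o.h.zy w' = o.h.zy w := funext fun r => h (o.h.E (.inl r)) fun z => by
          simpa using (o.h.mem_ty (.inl r)).1 z
        exact (congrArg (· ∈ o.W) this).mpr hw) (Φ := Φ) (Bl := Bl) (θ := θ) w1 w2 w3
      (le_trans (by omega : o.n ≤ 2 * o.n) p.le) w4 w5 (p.M ▸ hC)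
      (rg_of p.rg p.fo.ok.old.stg (by omega) (e := e) (by omega)
      (by omega) (ex_le (by omega) (by omega)) (ex_le (by omega) (by omega))) (by positivity)
      (Nat.mul_le_mul_left s (card_grid_le (b := n) (k := d + 2)
        (fun i => by unfold q1; split_ifs <;> omega) (by simp))) le_rfl rfl (by nlinarith)
      (Un.half_le (le_trans (le_of_eq (by ring)) h))

/-- **the witness with any equivalent phase** -/
theorem witg2 (s d : ℕ) : WITG s d := witg (witf2 s d)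

end Crest.Agent.N49.Wf

end
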